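import Vale.Agent.P188.QA7.End3
import Vale.Agent.P188.H882.QA6b
import Vale.Agent.P188.H854.End

/-!
P188: the algebraic end of route A is a theorem; rigidity follows from `OutA`.
-/

universe u v

namespace Vale.Agent.P188.QA7

/-- **(QA6)** -/
theorem qa6 : H882.QA6 := H882.qa6_of_top H882.qa6b_top

/-- **The algebraic end of route A.** -/
theorem endA : H789.EndA := endA_of qa6

/-- `Core` from the analytic output of route A. -/
theorem core_of_outA (hA : H789.OutA) : H187.Core := H789.core_of_outA hA endA

/-- **Rigidity from the analytic output of route A.** -/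
theorem rigidity_of_outA (hA : H789.OutA) {H : Type u} {G : Type v} [Group H] [Group G]
    (hG : IsVirtuallyPolycyclic G) (hQ : QuasiIsometric H G) : IsVirtuallyPolycyclic H :=
  H789.rigidity_of_outA hA endA hG hQ

end Vale.Agent.P188.QA7
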