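import Vale.Agent.P188.QA7.Defs

/-!
P188, QA7, (S3): a group with a hypercentral subgroup of finite index is
finite-by-(torsion-free nilpotent) (helper83).
-/

universe u

namespace Vale.Agent.P188.QA7

open Vale.Agent.P188.H754 Vale.Agent.P188.H796
open scoped commutatorElement

theorem finite_tor_add {M : Type u} [AddCommGroup M] [Module.Finite ℤ M] :
    {x : M | ∃ e : ℕ, e ≠ 0 ∧ e • x = 0}.Finite := by
  have h1 : Module.Finite ℤ (Submodule.torsion ℤ M) := inferInstance
  have h2 : Finite (Submodule.torsion ℤ M) :=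
    Module.finite_of_fg_torsion _ (Submodule.torsion_isTorsion)
  refine Set.Finite.subset (Set.toFinite (Submodule.torsion ℤ M : Set M)) ?_
  rintro x ⟨e, he, hx⟩
  rw [SetLike.mem_coe, Submodule.mem_torsion_iff]
  refine ⟨⟨(e : ℤ), mem_nonZeroDivisors_of_ne_zero (by exact_mod_cast he)⟩, ?_⟩
  change (e : ℤ) • x = 0
  rw [natCast_zsmul]; exact hx

theorem finite_tor {A : Type u} [Group A] [Group.FG A] (hcomm : ∀ x y : A, x * y = y * x) :
    {x : A | ∃ e : ℕ, e ≠ 0 ∧ x ^ e = 1}.Finite := by
  let inst : CommGroup A := { (inferInstance : Group A) with mul_comm := hcomm }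
  have hfg0 : AddGroup.FG (Additive A) := by
    rw [AddGroup.fg_iff_addMonoid_fg, ← Monoid.fg_iff_add_fg, ← Group.fg_iff_monoid_fg]
    infer_instance
  have hfin : Module.Finite ℤ (Additive A) := Module.Finite.iff_addGroup_fg.2 hfg0
  have h := finite_tor_add (M := Additive A)
  exact h

theorem fg_map {G : Type u} {G' : Type u} [Group G] [Group G'] {H : Subgroup G} (h : H.FG)
    (f : G →* G') : (H.map f).FG := by
  classical
  obtain ⟨S, hS⟩ := h
  refine ⟨S.image f, ?_⟩
  rw [Finset.coe_image, ← hS, MonoidHom.map_closure]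

/-- torsion elements in a group which is finite over its centre -/
theorem tor_mul {S : Type u} [Group S] (hfi : (Subgroup.center S).FiniteIndex) {x y : S}
    (hx : ∃ e : ℕ, e ≠ 0 ∧ x ^ e = 1) (hy : ∃ e : ℕ, e ≠ 0 ∧ y ^ e = 1) :
    ∃ e : ℕ, e ≠ 0 ∧ (x * y) ^ e = 1 := by
  obtain ⟨a, ha, hx⟩ := hx
  obtain ⟨b, hb, hy⟩ := hy
  obtain ⟨d, hd⟩ : ∃ d, d = (Subgroup.center S).index := ⟨_, rfl⟩
  have hd0 : d ≠ 0 := by rw [hd]; exact hfi.index_ne_zero
  refine ⟨d * (a * b), mul_ne_zero hd0 (mul_ne_zero ha hb), ?_⟩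
  have h1 : (x * y) ^ d = x ^ d * y ^ d := by
    have := congrArg (Subtype.val : Subgroup.center S → S) (map_mul (MonoidHom.transferCenterPow S) x y)
    rw [Subgroup.coe_mul, MonoidHom.transferCenterPow_apply, MonoidHom.transferCenterPow_apply,
      MonoidHom.transferCenterPow_apply, ← hd] at this
    exact this
  have hc : Commute (x ^ d) (y ^ d) := by
    have hm : x ^ d ∈ Subgroup.center S := by
      rw [hd, ← MonoidHom.transferCenterPow_apply]
      exact (MonoidHom.transferCenterPow S x).2
    exact ((Subgroup.mem_center_iff.1 hm) (y ^ d)).symm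
  rw [pow_mul, h1, hc.mul_pow, ← pow_mul, ← pow_mul]
  have e1 : x ^ (d * (a * b)) = 1 := by
    rw [show d * (a * b) = a * (d * b) by ring, pow_mul, hx, one_pow]
  have e2 : y ^ (d * (a * b)) = 1 := by
    rw [show d * (a * b) = b * (d * a) by ring, pow_mul, hy, one_pow]
  rw [e1, e2, one_mul]

theorem baer_aux : ∀ (n : ℕ) (C : Type u) [Group C] (Z : ℕ → Subgroup C),
    (Z 0).FiniteIndex → Z n = ⊥ → (∀ i, (Z i).FG) → (∀ i, Z (i + 1) ≤ Z i) →
    (∀ i, ∀ x ∈ Z i, ∀ c : C, ⁅c, x⁆ ∈ Z (i + 1)) →
    ∃ T : Subgroup C, T.Normal ∧ Finite T ∧ Iso T ⊤ ∧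
      ∃ k, (⊤ : Subgroup C).lowerCentralSeries k ≤ T
  | 0, C, _, Z, h0, hn, _, _, _ => by
    have hfi : (⊥ : Subgroup C).FiniteIndex := by rw [← hn]; exact h0
    have hfin : Finite C := by
      have h1 : Finite (C ⧸ (⊥ : Subgroup C)) := inferInstance
      exact Finite.of_equiv _ (QuotientGroup.quotientBot (G := C)).toEquiv
    exact ⟨⊤, inferInstance, inferInstance, fun x _ _ _ _ => trivial, 0, le_top⟩
  | n + 1, C, _, Z, h0, hn, hfg, hle, hcom => by
    classical
    obtain ⟨z, hz⟩ : ∃ z, z = Z n := ⟨_, rfl⟩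
    have hzc : ∀ x ∈ z, ∀ c : C, c * x = x * c := by
      intro x hx c
      have h1 := hcom n x (hz ▸ hx) c
      rw [hn, Subgroup.mem_bot] at h1
      exact commutatorElement_eq_one_iff_mul_comm.1 h1
    have hzn : z.Normal := by
      constructor
      intro x hx c
      rw [hzc x hx c, mul_inv_cancel_right]
      exact hx
    have hmk := QuotientGroup.mk'_surjective z
    obtain ⟨T₀, hT₀n, hT₀f, hT₀i, k, hk⟩ := baer_aux n (C ⧸ z)
      (fun i => (Z i).map (QuotientGroup.mk' z))
      (by
        have h2 := Subgroup.index_map_dvd (Z 0) hmk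
        refine ⟨fun h3 => h0.index_ne_zero ?_⟩
        have h4 : ((Z 0).map (QuotientGroup.mk' z)).index = 0 := h3
        rw [h4] at h2
        exact Nat.eq_zero_of_zero_dvd h2)
      (by
        rw [← hz, Subgroup.map_eq_bot_iff, QuotientGroup.ker_mk'])
      (fun i => fg_map (hfg i) _)
      (fun i => Subgroup.map_mono (hle i))
      (fun i => by
        rintro _ ⟨x, hx, rfl⟩ c
        obtain ⟨c, rfl⟩ := hmk c
        rw [← map_commutatorElement]
        exact Subgroup.mem_map_of_mem _ (hcom i x hx c))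
    obtain ⟨T', hT'⟩ : ∃ T', T' = T₀.comap (QuotientGroup.mk' z) := ⟨_, rfl⟩
    have hT'n : T'.Normal := by rw [hT']; exact Subgroup.Normal.comap hT₀n _
    have hmem : ∀ x : C, x ∈ T' ↔ (QuotientGroup.mk' z x) ∈ T₀ := by
      intro x; rw [hT']; rfl
    have hzT' : z ≤ T' := by
      intro x hx
      rw [hmem]
      have : QuotientGroup.mk' z x = 1 := (QuotientGroup.eq_one_iff x).2 hx
      rw [this]; exact one_mem _
    -- `z` has finite index in `T'`
    obtain ⟨d, hd0, hd⟩ : ∃ d : ℕ, d ≠ 0 ∧ ∀ x ∈ T', x ^ d ∈ z := by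
      refine ⟨Nat.card T₀, Nat.card_pos.ne', fun x hx => ?_⟩
      have h1 : (⟨QuotientGroup.mk' z x, (hmem x).1 hx⟩ : T₀) ^ Nat.card T₀ = 1 :=
        pow_card_eq_one'
      have h2 := congrArg (Subtype.val : T₀ → C ⧸ z) h1
      have h3 : (QuotientGroup.mk' z) (x ^ Nat.card T₀) = 1 := by
        rw [map_pow]; exact h2
      exact (QuotientGroup.eq_one_iff _).1 h3
    have hrel : (z.subgroupOf T').FiniteIndex := by
      refine ⟨?_⟩
      have hfin : Finite (T' ⧸ z.subgroupOf T') := by
        let f : T' ⧸ z.subgroupOf T' → T₀ := Quotient.lift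
          (fun x : T' => (⟨QuotientGroup.mk' z (x : C), (hmem x).1 x.2⟩ : T₀)) (by
            intro a b hab
            have h1 : a⁻¹ * b ∈ z.subgroupOf T' := QuotientGroup.leftRel_apply.1 hab
            rw [Subgroup.mem_subgroupOf] at h1
            apply Subtype.ext
            exact QuotientGroup.eq.2 (by simpa using h1))
        refine Finite.of_injective f ?_
        intro a b hab
        induction a using QuotientGroup.induction_on with
        | H a =>
          induction b using QuotientGroup.induction_on with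
          | H b =>
            rw [QuotientGroup.eq, Subgroup.mem_subgroupOf]
            have h1 := congrArg (Subtype.val : T₀ → C ⧸ z) hab
            have h2 : (QuotientGroup.mk (a : C) : C ⧸ z) = QuotientGroup.mk (b : C) := h1
            simpa using QuotientGroup.eq.1 h2
      exact Nat.card_pos.ne'
    have hcent : (Subgroup.center T').FiniteIndex := by
      refine Subgroup.finiteIndex_of_le (H := z.subgroupOf T') ?_
      intro x hx
      rw [Subgroup.mem_subgroupOf] at hx
      rw [Subgroup.mem_center_iff]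
      intro y
      exact Subtype.ext (hzc _ hx y)
    -- the torsion of `T'`
    let T : Subgroup C :=
      { carrier := {x | x ∈ T' ∧ ∃ e : ℕ, e ≠ 0 ∧ x ^ e = 1}
        one_mem' := ⟨one_mem _, 1, one_ne_zero, by simp⟩
        mul_mem' := by
          rintro x y ⟨hx, e, he, hxe⟩ ⟨hy, e', he', hye⟩
          refine ⟨mul_mem hx hy, ?_⟩
          obtain ⟨f, hf, h1⟩ := tor_mul hcent (x := ⟨x, hx⟩) (y := ⟨y, hy⟩)
            ⟨e, he, Subtype.ext (by simpa using hxe)⟩ ⟨e', he', Subtype.ext (by simpa using hye)⟩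
          exact ⟨f, hf, by simpa using congrArg (Subtype.val : T' → C) h1⟩
        inv_mem' := by
          rintro x ⟨hx, e, he, hxe⟩
          exact ⟨inv_mem hx, e, he, by rw [inv_pow, hxe, inv_one]⟩ }
    have hTmem : ∀ x, x ∈ T ↔ x ∈ T' ∧ ∃ e : ℕ, e ≠ 0 ∧ x ^ e = 1 := fun _ => Iff.rfl
    refine ⟨T, ?_, ?_, ?_, k + 1, ?_⟩
    · constructor
      intro x hx c
      obtain ⟨h1, e, he, h2⟩ := hx
      exact ⟨hT'n.conj_mem x h1 c, e, he, by rw [conj_pow, h2]; simp⟩
    · -- finite
      have hzfg : Group.FG z := (Group.fg_iff_subgroup_fg _).2 (hz ▸ hfg n)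
      have hzf := finite_tor (A := z) (fun x y => Subtype.ext (hzc y y.2 x))
      have h1 : ((T ⊓ z : Subgroup C) : Set C).Finite := by
        refine (hzf.image (Subtype.val : z → C)).subset ?_
        rintro x ⟨⟨-, e, he, hx⟩, hxz⟩
        exact ⟨⟨x, hxz⟩, ⟨e, he, Subtype.ext (by simpa using hx)⟩, rfl⟩
      have h2 : Finite ((z.subgroupOf T) : Subgroup T) := by
        have h3 : Finite ((T ⊓ z : Subgroup C)) := h1
        refine Finite.of_injective
          (fun x : (z.subgroupOf T : Subgroup T) =>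
            (⟨((x : T) : C), (x : T).2, Subgroup.mem_subgroupOf.1 x.2⟩ : (T ⊓ z : Subgroup C))) ?_
        intro a b hab
        apply Subtype.ext
        apply Subtype.ext
        exact congrArg (Subtype.val : (T ⊓ z : Subgroup C) → C) hab
      have h3 : (z.subgroupOf T).FiniteIndex := by
        refine ⟨?_⟩
        have hfin : Finite (T ⧸ z.subgroupOf T) := by
          let f : T ⧸ z.subgroupOf T → T₀ := Quotient.lift
            (fun x : T => (⟨QuotientGroup.mk' z (x : C), (hmem x).1 x.2.1⟩ : T₀)) (by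
              intro a b hab
              have h1 : a⁻¹ * b ∈ z.subgroupOf T := QuotientGroup.leftRel_apply.1 hab
              rw [Subgroup.mem_subgroupOf] at h1
              apply Subtype.ext
              exact QuotientGroup.eq.2 (by simpa using h1))
          refine Finite.of_injective f ?_
          intro a b hab
          induction a using QuotientGroup.induction_on with
          | H a =>
            induction b using QuotientGroup.induction_on with
            | H b =>
              rw [QuotientGroup.eq, Subgroup.mem_subgroupOf]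
              have h1 := congrArg (Subtype.val : T₀ → C ⧸ z) hab
              have h2 : (QuotientGroup.mk (a : C) : C ⧸ z) = QuotientGroup.mk (b : C) := h1
              simpa using QuotientGroup.eq.1 h2
        exact Nat.card_pos.ne'
      have h4 : Finite (T ⧸ z.subgroupOf T) := inferInstance
      exact Finite.of_equiv _ (Subgroup.groupEquivQuotientProdSubgroup (s := z.subgroupOf T)).symm
    · -- isolated
      rintro x - e he ⟨-, f, hf, hx⟩
      have h1 : x ^ (e * f) = 1 := by rw [pow_mul, hx]
      refine ⟨(hmem x).2 (hT₀i _ trivial (e * f) (mul_ne_zero he hf) ?_), e * f,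
        mul_ne_zero he hf, h1⟩
      rw [← map_pow, h1, map_one]
      exact one_mem _
    · rw [Subgroup.lowerCentralSeries_succ]
      have h1 : (⊤ : Subgroup C).lowerCentralSeries k ≤ T' := by
        rw [hT', ← Subgroup.map_le_iff_le_comap, Subgroup.map_lowerCentralSeries]
        exact (Subgroup.lowerCentralSeries_mono k le_top).trans hk
      refine (Subgroup.commutator_mono h1 le_rfl).trans ?_
      rw [Subgroup.commutator_le]
      intro t ht c _
      -- `⁅t, c⁆` is torsion
      have hu : c * t⁻¹ * c⁻¹ ∈ T' := hT'n.conj_mem _ (inv_mem ht) c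
      have hcomm : ⁅t, c⁆ = t * (c * t⁻¹ * c⁻¹) := by rw [commutatorElement_def]; group
      obtain ⟨D, hD⟩ : ∃ D, D = (Subgroup.center T').index := ⟨_, rfl⟩
      have hD0 : D ≠ 0 := by rw [hD]; exact hcent.index_ne_zero
      refine ⟨by rw [hcomm]; exact mul_mem ht hu, D * d, mul_ne_zero hD0 hd0, ?_⟩
      have hp : ∀ x y : T', (x * y) ^ D = x ^ D * y ^ D := by
        intro x y
        have := congrArg (Subtype.val : Subgroup.center T' → T')
          (map_mul (MonoidHom.transferCenterPow T') x y)
        rw [Subgroup.coe_mul, MonoidHom.transferCenterPow_apply,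
          MonoidHom.transferCenterPow_apply, MonoidHom.transferCenterPow_apply, ← hD] at this
        exact this
      have hcen : ∀ x : T', x ^ D ∈ Subgroup.center T' := by
        intro x
        rw [hD, ← MonoidHom.transferCenterPow_apply]
        exact (MonoidHom.transferCenterPow T' x).2
      have h2 := hp ⟨t, ht⟩ ⟨_, hu⟩
      have h3 : ((⟨t, ht⟩ : T') * ⟨_, hu⟩) ^ (D * d) = (⟨t, ht⟩ : T') ^ (D * d) *
          (⟨_, hu⟩ : T') ^ (D * d) := by
        have hc : Commute ((⟨t, ht⟩ : T') ^ D) ((⟨_, hu⟩ : T') ^ D) :=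
          ((Subgroup.mem_center_iff.1 (hcen _)) _).symm
        rw [pow_mul, h2, hc.mul_pow, ← pow_mul, ← pow_mul]
      have h4 := congrArg (Subtype.val : T' → C) h3
      have h5 : (t * (c * t⁻¹ * c⁻¹)) ^ (D * d) = t ^ (D * d) * (c * t⁻¹ * c⁻¹) ^ (D * d) := by
        simpa using h4
      rw [hcomm, h5, conj_pow, inv_pow]
      have h6 : t ^ (D * d) ∈ z := by
        rw [mul_comm D d, pow_mul]; exact z.pow_mem (hd t ht) D
      rw [hzc _ (inv_mem h6) c]
      group

theorem stBaer : StBaer.{u} := fun C _ n Z h0 hn hfg hle hcom =>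
  baer_aux n C Z h0 hn hfg hle hcom

end Vale.Agent.P188.QA7
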