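import Vale.Agent.P188.QA7.Nil
import Vale.Agent.P188.QA7.Baer
import Vale.Agent.P188.H789.FG
import Vale.Agent.P188.H882.HS

/-!
P188, QA7: finitely generated torsion-free nilpotent groups have a central series with infinite
cyclic factors (helper83).
-/

universe u

namespace Vale.Agent.P188.QA7

open Vale.Agent.P188.H754 Vale.Agent.P188.H796
open scoped commutatorElement Pointwise

theorem noeth {L : Type u} [Group L] [Group.FG L] {D : ℕ} (hG : GrowthLE L D) (M : Subgroup L) :
    M.FG := by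
  classical
  obtain ⟨N, hN, hfi, -, h, -, hp⟩ := stNil D L hG
  have h1 : (M.subgroupOf N).FG := PolyZ.subgroup_fg hp _
  have h2 : (N.subgroupOf M).FG := by
    have h3 : ((M.subgroupOf N).map N.subtype).FG := fg_map h1 _
    have h4 : (M.subgroupOf N).map N.subtype = M ⊓ N := by
      rw [Subgroup.subgroupOf_map_subtype]
    rw [h4] at h3
    have h5 := fg_subgroupOf (inf_le_left : M ⊓ N ≤ M) h3
    rwa [inf_comm, Subgroup.inf_subgroupOf_right] at h5
  obtain ⟨Y, hY⟩ := h2
  have h3 : (⊤ : Subgroup M).FG := by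
    refine H789.fg_of_map ((QuotientGroup.mk' N).comp M.subtype) (Y := (Y : Set M))
      (Finset.finite_toSet Y) ?_ (fun _ _ => trivial) ?_
    · rw [hY]
      ext x
      rw [Subgroup.mem_subgroupOf, MonoidHom.mem_ker]
      exact (QuotientGroup.eq_one_iff (x : L)).symm
    · have hf : Finite (L ⧸ N) := inferInstance
      exact ⟨(Set.toFinite ((⊤ : Subgroup M).map
        ((QuotientGroup.mk' N).comp M.subtype) : Set (L ⧸ N))).toFinset, by
        rw [Set.Finite.coe_toFinset, Subgroup.closure_eq]⟩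
  rw [← Group.fg_iff_subgroup_fg]
  exact ⟨h3⟩

theorem polyZ_step {G : Type u} [Group G] {N M : Subgroup G} {t : G} {n : ℕ}
    (hle : N ≤ M) (hmem : t ∈ M) (hc : ∀ g ∈ N, t * g * t⁻¹ ∈ N) (hc' : ∀ g ∈ N, t⁻¹ * g * t ∈ N)
    (hdec : ∀ b ∈ M, ∃ i : ℤ, b * t ^ i ∈ N) (hinj : ∀ i : ℤ, t ^ i ∈ N → i = 0)
    (hn : PolyZ n N) : PolyZ (n + 1) M := by
  have huniq : ∀ (g : G) (a b : ℤ), g * t ^ a ∈ N → g * t ^ b ∈ N → a = b := by
    intro g a b ha hb
    have : t ^ (b - a) ∈ N := by
      have e : t ^ (b - a) = (g * t ^ a)⁻¹ * (g * t ^ b) := by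
        rw [sub_eq_neg_add, zpow_add, zpow_neg]; group
      rw [e]
      exact N.mul_mem (N.inv_mem ha) hb
    have := hinj _ this
    omega
  have hconj : ∀ (k : ℤ), ∀ g ∈ N, t ^ k * g * (t ^ k)⁻¹ ∈ N := conj_zpow hc hc'
  choose f hf using hdec
  let φ : M →* Multiplicative ℤ :=
    { toFun := fun g => Multiplicative.ofAdd (-f g g.2)
      map_one' := by
        show Multiplicative.ofAdd _ = Multiplicative.ofAdd (0 : ℤ)
        congr 1
        rw [neg_eq_zero]
        exact huniq _ _ _ (hf _ _) (by simp)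
      map_mul' := by
        intro g g'
        rw [← ofAdd_add]
        congr 1
        have h0 : f ((g * g' : M) : G) (g * g' : M).2 = f g' g'.2 + f g g.2 := by
          refine huniq _ _ _ (hf _ _) ?_
          have h1 := hf g g.2
          have h2 := hf g' g'.2
          have e : ((g * g' : M) : G) * t ^ (f g' g'.2 + f g g.2)
              = ((g : G) * t ^ (f g g.2)) * (t ^ (-(f g g.2)) * ((g' : G) * t ^ (f g' g'.2)) *
                (t ^ (-(f g g.2)))⁻¹) := by
            rw [zpow_add, zpow_neg, Subgroup.coe_mul]; group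
          rw [e]
          exact N.mul_mem h1 (hconj _ _ h2)
        rw [h0]; ring }
  refine ⟨φ, ?_, ?_⟩
  · intro k
    refine ⟨⟨t ^ (Multiplicative.toAdd k), M.zpow_mem hmem _⟩, ?_⟩
    show Multiplicative.ofAdd _ = k
    rw [← ofAdd_toAdd k]
    congr 1
    rw [neg_eq_iff_eq_neg]
    refine huniq _ _ _ (hf _ _) ?_
    simp
  · refine PolyZ.of_equiv n ?_ hn
    have hker : φ.ker = N.subgroupOf M := by
      ext g
      rw [MonoidHom.mem_ker, Subgroup.mem_subgroupOf]
      constructor
      · intro hg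
        have h0 : -f g g.2 = 0 := hg
        rw [neg_eq_zero] at h0
        have := hf g g.2
        rw [h0] at this
        simpa using this
      · intro hg
        show Multiplicative.ofAdd _ = Multiplicative.ofAdd (0 : ℤ)
        congr 1
        rw [neg_eq_zero]
        exact huniq _ _ _ (hf _ _) (by simpa using hg)
    exact ((MulEquiv.subgroupCongr hker).trans (Subgroup.subgroupOfEquivOfLe hle)).symm

theorem polyZ_of_CS {P : Type u} [Group P] {S : Set P} : ∀ (h : ℕ) (B : Subgroup P),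
    H882.CS S h B → PolyZ h B
  | 0, B, hB => by
    have h1 : B = ⊥ := hB
    subst h1
    exact (inferInstance : Subsingleton (⊥ : Subgroup P))
  | h + 1, B, hB => by
    obtain ⟨N, t, hz, hN, -⟩ := hB
    exact polyZ_step hz.le hz.mem hz.conj hz.conj' hz.gen hz.free (polyZ_of_CS h N hN)

/-- the extension step by a free abelian factor -/
theorem cs_flag {P : Type u} [Group P] {S : Set P} {h : ℕ} {M : Subgroup P}
    (hM : H882.CS S h M) : ∀ (r : ℕ) (M' : Subgroup P), M ≤ M' →
    (∀ p ∈ S, ∀ x ∈ M', p * x * p⁻¹ * x⁻¹ ∈ M) →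
    ∀ (Φ : M' →* Multiplicative (Fin r → ℤ)), Function.Surjective Φ →
    (∀ x : M', Φ x = 1 ↔ (x : P) ∈ M) → H882.CS S (h + r) M'
  | 0, M', hle, _, Φ, _, hker => by
    have h1 : M' = M := by
      refine le_antisymm ?_ hle
      intro x hx
      exact (hker ⟨x, hx⟩).1 (Subsingleton.elim _ _)
    rw [h1]; exact hM
  | r + 1, M', hle, hS, Φ, hΦ, hker => by
    obtain ⟨co, hco⟩ : ∃ co : M' → ℤ, co = fun x => Multiplicative.toAdd (Φ x) (Fin.last r) :=
      ⟨_, rfl⟩
    have hmul : ∀ x y, co (x * y) = co x + co y := by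
      intro x y; rw [hco]; simp
    have hone : co 1 = 0 := by rw [hco]; simp
    have hinv : ∀ x, co x⁻¹ = -co x := by
      intro x; rw [hco]; simp
    let N : Subgroup P :=
      { carrier := {x | ∃ hx : x ∈ M', co ⟨x, hx⟩ = 0}
        one_mem' := ⟨one_mem _, hone⟩
        mul_mem' := by
          rintro x y ⟨hx, hx'⟩ ⟨hy, hy'⟩
          refine ⟨mul_mem hx hy, ?_⟩
          have := hmul ⟨x, hx⟩ ⟨y, hy⟩
          rw [hx', hy', add_zero] at this
          exact this
        inv_mem' := by
          rintro x ⟨hx, hx'⟩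
          refine ⟨inv_mem hx, ?_⟩
          have := hinv ⟨x, hx⟩
          rw [hx', neg_zero] at this
          exact this }
    have hNle : N ≤ M' := fun x hx => hx.1
    have hMN : M ≤ N := by
      intro x hx
      refine ⟨hle hx, ?_⟩
      have := (hker ⟨x, hle hx⟩).2 hx
      rw [hco]
      simp only []
      rw [this]; rfl
    obtain ⟨t, ht⟩ := hΦ (Multiplicative.ofAdd (Pi.single (Fin.last r) 1))
    have hcot : co t = 1 := by
      rw [hco]; simp only []; rw [ht]; simp
    have hcoz : ∀ i : ℤ, co (t ^ i) = i := by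
      intro i
      have : Φ (t ^ i) = (Φ t) ^ i := map_zpow _ _ _
      rw [hco]; simp only []; rw [this, ht, toAdd_zpow]; simp
    have hnorm : ∀ g ∈ M', ∀ x ∈ N, g * x * g⁻¹ ∈ N := by
      rintro g hg x ⟨hx, hx'⟩
      refine ⟨mul_mem (mul_mem hg hx) (inv_mem hg), ?_⟩
      have h1 := hmul (⟨g, hg⟩ * ⟨x, hx⟩) (⟨g, hg⟩⁻¹ : M')
      rw [hmul ⟨g, hg⟩ ⟨x, hx⟩, hinv, hx', add_zero, add_neg_cancel] at h1
      exact h1
    refine ⟨N, (t : P), ⟨hNle, t.2, fun g hg => hnorm t t.2 g hg, ?_, ?_, ?_⟩, ?_, ?_⟩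
    · intro g hg
      have := hnorm (t : P)⁻¹ (inv_mem t.2) g hg
      rwa [inv_inv] at this
    · intro b hb
      refine ⟨-co ⟨b, hb⟩, mul_mem hb (zpow_mem t.2 _), ?_⟩
      have h1 := hmul ⟨b, hb⟩ (t ^ (-co ⟨b, hb⟩))
      rw [hcoz, add_neg_cancel] at h1
      exact h1
    · rintro i ⟨hi, hi'⟩
      have h1 : co (t ^ i) = 0 := hi'
      rwa [hcoz] at h1
    · -- induction
      let Φ' : N →* Multiplicative (Fin r → ℤ) :=
        { toFun := fun x => Multiplicative.ofAdd
            (fun i => Multiplicative.toAdd (Φ ⟨x, hNle x.2⟩) (Fin.castSucc i))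
          map_one' := by
            have : (⟨((1 : N) : P), hNle (1 : N).2⟩ : M') = 1 := rfl
            rw [this, map_one]; rfl
          map_mul' := by
            intro x y
            have : (⟨((x * y : N) : P), hNle (x * y : N).2⟩ : M') =
              ⟨x, hNle x.2⟩ * ⟨y, hNle y.2⟩ := rfl
            rw [this, map_mul]; rfl }
      refine cs_flag hM r N hMN (fun p hp x hx => hS p hp x (hNle hx)) Φ' ?_ ?_
      · intro v
        obtain ⟨x, hx⟩ := hΦ (Multiplicative.ofAdd
          (Fin.snoc (Multiplicative.toAdd v : Fin r → ℤ) (0 : ℤ) : Fin (r + 1) → ℤ))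
        refine ⟨⟨x, x.2, ?_⟩, ?_⟩
        · rw [hco]; simp only []; rw [hx]; simp
        · change Multiplicative.ofAdd (fun i => Multiplicative.toAdd (Φ x) (Fin.castSucc i)) = v
          rw [hx]
          simp
      · intro x
        rw [← hker ⟨x, hNle x.2⟩]
        constructor
        · intro h1
          have h2 : ∀ i : Fin r, Multiplicative.toAdd (Φ ⟨x, hNle x.2⟩) (Fin.castSucc i) = 0 :=
            fun i => congrFun (congrArg Multiplicative.toAdd h1) i
          have h3 : Multiplicative.toAdd (Φ ⟨x, hNle x.2⟩) (Fin.last r) = 0 := by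
            obtain ⟨_, h4⟩ := x.2
            rw [hco] at h4; exact h4
          have h4 : Multiplicative.toAdd (Φ ⟨x, hNle x.2⟩) = 0 := by
            funext i
            refine Fin.lastCases ?_ (fun i => ?_) i
            · exact h3
            · exact h2 i
          exact h4
        · intro h1
          change Multiplicative.ofAdd
            (fun i => Multiplicative.toAdd (Φ ⟨x, hNle x.2⟩) (Fin.castSucc i)) = 1
          rw [h1]; rfl
    · intro p hp
      refine ⟨fun g hg => ?_, ?_⟩
      · have h1 : p * g * p⁻¹ = (p * g * p⁻¹ * g⁻¹) * g := by group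
        rw [h1]
        exact mul_mem (hMN (hS p hp g (hNle hg))) hg
      · have h1 := hMN (hS p hp t t.2)
        have h2 := hnorm (t : P)⁻¹ (inv_mem t.2) _ h1
        have h3 : (t : P)⁻¹ * (p * t * p⁻¹) = (t : P)⁻¹ * (p * t * p⁻¹ * (t : P)⁻¹) * (t : P)⁻¹⁻¹ := by
          group
        rw [h3]; exact h2

/-- a homomorphism onto `ℤ ^ r` with the given kernel -/
theorem exists_coords {A : Type u} [Group A] [Group.FG A] (hcomm : ∀ x y : A, x * y = y * x)
    (htf : TF A) : ∃ (r : ℕ) (Φ : A →* Multiplicative (Fin r → ℤ)), Function.Bijective Φ := by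
  let inst : CommGroup A := { (inferInstance : Group A) with mul_comm := hcomm }
  have hfg0 : AddGroup.FG (Additive A) := by
    rw [AddGroup.fg_iff_addMonoid_fg, ← Monoid.fg_iff_add_fg, ← Group.fg_iff_monoid_fg]
    infer_instance
  have hfin : Module.Finite ℤ (Additive A) := Module.Finite.iff_addGroup_fg.2 hfg0
  have htf' : ∀ (n : ℕ) (x : Additive A), n ≠ 0 → n • x = 0 → x = 0 := by
    intro n x hn hx
    exact htf x.toMul n hn hx
  have htor : Module.IsTorsionFree ℤ (Additive A) := by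
    refine Module.IsTorsionFree.of_smul_eq_zero fun r m h => ?_
    by_cases hr : r = 0
    · exact Or.inl hr
    · right
      refine htf' r.natAbs m (Int.natAbs_ne_zero.2 hr) ?_
      rcases Int.natAbs_eq r with h1 | h1
      · rw [h1, natCast_zsmul] at h; exact h
      · rw [h1, neg_smul, natCast_zsmul, neg_eq_zero] at h; exact h
  obtain ⟨r, b⟩ : Σ r : ℕ, Module.Basis (Fin r) ℤ (Additive A) := Module.basisOfFiniteTypeTorsionFree'
  refine ⟨r, AddMonoidHom.toMultiplicativeRight (b.equivFun.toAddEquiv.toAddMonoidHom), ?_⟩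
  exact b.equivFun.bijective

/-- factors of the upper central series of a torsion-free group are torsion free -/
theorem ucs_tf {L : Type u} [Group L] (htf : TF L) : ∀ (i : ℕ), ∀ x ∈ Subgroup.upperCentralSeries L (i + 1),
    ∀ e : ℕ, e ≠ 0 → x ^ e ∈ Subgroup.upperCentralSeries L i → x ∈ Subgroup.upperCentralSeries L i
  | 0, x, _, e, he, hxe => by
    rw [Subgroup.upperCentralSeries_zero, Subgroup.mem_bot] at hxe ⊢
    exact htf x e he hxe
  | i + 1, x, hx, e, he, hxe => by
    rw [Subgroup.mem_upperCentralSeries_succ_iff] at hx hxe ⊢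
    intro y
    refine ucs_tf htf i _ (hx y) e he ?_
    -- `⁅x, y⁆ ^ e ≡ ⁅x ^ e, y⁆` modulo `U i`
    have key : ∀ n : ℕ, ∃ u ∈ Subgroup.upperCentralSeries L i, ⁅x, y⁆ ^ n = ⁅x ^ n, y⁆ * u := by
      intro n
      induction n with
      | zero => exact ⟨1, one_mem _, by simp⟩
      | succ n ih =>
        obtain ⟨u, hu, hun⟩ := ih
        -- ⁅x^(n+1), y⁆ = x^n ⁅x,y⁆ x^-n ⁅x^n, y⁆
        have h1 : ⁅x ^ (n + 1), y⁆ = (x ^ n * ⁅x, y⁆ * (x ^ n)⁻¹) * ⁅x ^ n, y⁆ := by
          rw [commutatorElement_def, commutatorElement_def, commutatorElement_def, pow_succ]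
          group
        have h2 : ⁅⁅x, y⁆, x ^ n⁆ ∈ Subgroup.upperCentralSeries L i := (hx y) (x ^ n)
        have h3 : x ^ n * ⁅x, y⁆ * (x ^ n)⁻¹ = ⁅⁅x, y⁆, x ^ n⁆⁻¹ * ⁅x, y⁆ := by
          rw [commutatorElement_def (g₁ := ⁅x, y⁆)]
          group
        have hnU : (Subgroup.upperCentralSeries L i).Normal := inferInstance
        -- ⁅x,y⁆^(n+1) = ⁅x,y⁆ * ⁅x^n,y⁆ * u
        refine ⟨(⁅x, y⁆ * ⁅x ^ n, y⁆)⁻¹ * ⁅⁅x, y⁆, x ^ n⁆ * (⁅x, y⁆ * ⁅x ^ n, y⁆) * u, ?_, ?_⟩
        · refine mul_mem ?_ hu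
          have := hnU.conj_mem _ h2 (⁅x, y⁆ * ⁅x ^ n, y⁆)⁻¹
          rwa [inv_inv] at this
        · rw [pow_succ', hun, h1, h3]
          group
    obtain ⟨u, hu, hue⟩ := key e
    rw [hue]
    exact mul_mem (hxe y) hu

theorem cs_ucs {L : Type u} [Group L] [Group.FG L] {D : ℕ} (hG : GrowthLE L D) (htf : TF L) :
    ∀ i : ℕ, ∃ h, H882.CS (Set.univ : Set L) h (Subgroup.upperCentralSeries L i)
  | 0 => ⟨0, Subgroup.upperCentralSeries_zero L⟩
  | i + 1 => by
    obtain ⟨h, hh⟩ := cs_ucs hG htf i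
    set M := Subgroup.upperCentralSeries L i with hM
    set M' := Subgroup.upperCentralSeries L (i + 1) with hM'
    have hle : M ≤ M' := Subgroup.upperCentralSeries_mono L (Nat.le_succ i)
    have hcom : ∀ x ∈ M', ∀ y : L, ⁅x, y⁆ ∈ M := fun x hx y =>
      (Subgroup.mem_upperCentralSeries_succ_iff.1 hx) y
    have hMn : M.Normal := inferInstance
    have hfgM' : Group.FG M' := (Group.fg_iff_subgroup_fg _).2 (noeth hG M')
    have hfgQ : Group.FG (M' ⧸ M.subgroupOf M') := QuotientGroup.fg _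
    obtain ⟨r, Φ, hΦ⟩ := exists_coords (A := M' ⧸ M.subgroupOf M') (by
      intro a b
      induction a using QuotientGroup.induction_on with
      | H a =>
        induction b using QuotientGroup.induction_on with
        | H b =>
          rw [← QuotientGroup.mk_mul, ← QuotientGroup.mk_mul, QuotientGroup.eq,
            Subgroup.mem_subgroupOf]
          have h1 : (((a * b)⁻¹ * (b * a) : M') : L) = ⁅(b : L)⁻¹, (a : L)⁻¹⁆ := by
            push_cast
            simp only [commutatorElement_def]; group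
          rw [h1]
          exact hcom _ (inv_mem b.2) _) (by
      intro a e he hae
      induction a using QuotientGroup.induction_on with
      | H a =>
        rw [← QuotientGroup.mk_pow, QuotientGroup.eq_one_iff, Subgroup.mem_subgroupOf] at hae
        rw [QuotientGroup.eq_one_iff, Subgroup.mem_subgroupOf]
        exact ucs_tf htf i a a.2 e he (by simpa using hae))
    refine ⟨h + r, cs_flag hh r M' hle ?_ (Φ.comp (QuotientGroup.mk' _))
      (hΦ.2.comp (QuotientGroup.mk'_surjective _)) ?_⟩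
    · intro p _ x hx
      have h1 := inv_mem (hcom x hx p)
      have h2 : p * x * p⁻¹ * x⁻¹ = ⁅x, p⁆⁻¹ := by rw [commutatorElement_def]; group
      rw [h2]; exact h1
    · intro x
      rw [MonoidHom.comp_apply, ← map_one Φ, hΦ.1.eq_iff]
      exact (QuotientGroup.eq_one_iff x).trans Subgroup.mem_subgroupOf

/-- finitely generated torsion-free nilpotent groups of growth degree at most `D` have a central
series of length at most `D` with infinite cyclic factors -/
theorem exists_CS {L : Type u} [Group L] [Group.FG L] {D : ℕ} (hG : GrowthLE L D)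
    (hnil : Group.IsNilpotent L) (htf : TF L) :
    ∃ h ≤ D, H882.CS (Set.univ : Set L) h ⊤ := by
  obtain ⟨n, hn⟩ := hnil
  obtain ⟨h, hh⟩ := cs_ucs hG htf n
  rw [hn] at hh
  refine ⟨h, ?_, hh⟩
  have h1 := polyZ_of_CS h _ hh
  exact polyZ_le h D _ h1 (hG.subgroup _)

theorem stPZ : StPZ.{u} := by
  intro D L _ hfg hG hnil htf
  obtain ⟨h, hh, hcs⟩ := exists_CS hG hnil htf
  exact ⟨h, hh, PolyZ.of_equiv h Subgroup.topEquiv (polyZ_of_CS h _ hcs)⟩

end Vale.Agent.P188.QA7
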