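import Vale.Agent.P188.H754.Malcev8
import Vale.Agent.P188.H796.Gromov

/-!
P188, block QA7 (structure of a locally virtually nilpotent group of bounded degree).
Exact statements of the sub-blocks (helper83).
-/

universe u

namespace Vale.Agent.P188.QA7

open Vale.Agent.P188.H754 Vale.Agent.P188.H796
open scoped commutatorElement

/-- the subgroup generated by the `J`-th powers -/
def pw (G : Type u) [Group G] (J : ℕ) : Subgroup G := Subgroup.closure {x | ∃ y : G, x = y ^ J}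

/-- torsion free -/
def TF (G : Type u) [Group G] : Prop := ∀ (x : G) (e : ℕ), e ≠ 0 → x ^ e = 1 → x = 1

/-- `T` is isolated in `C`. -/
def Iso {G : Type u} [Group G] (T C : Subgroup G) : Prop :=
  ∀ x ∈ C, ∀ e : ℕ, e ≠ 0 → x ^ e ∈ T → x ∈ T

/-- (S1) polynomial growth implies virtually nilpotent, with the bound for the Hirsch length -/
def StNil : Prop := ∀ (D : ℕ) (B : Type u) [Group B] [Group.FG B], GrowthLE B D →
  ∃ N : Subgroup B, N.Normal ∧ N.FiniteIndex ∧ Group.IsNilpotent N ∧ ∃ h ≤ D, PolyZ h N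

/-- (S1') finitely generated torsion-free nilpotent groups of growth degree at most `D` -/
def StPZ : Prop := ∀ (D : ℕ) (L : Type u) [Group L] [Group.FG L], GrowthLE L D →
  Group.IsNilpotent L → TF L → ∃ h ≤ D, PolyZ h L

/-- (S2) Minkowski: the action on the isolated lower central series is trivial on a subgroup of
bounded index -/
def StMink : Prop := ∀ h : ℕ, ∃ J : ℕ, ∀ (B : Type u) [Group B] (N : Subgroup B), N.Normal →
  N.FiniteIndex → Group.IsNilpotent N → PolyZ h N →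
  ∃ C : Subgroup B, C.Normal ∧ N ≤ C ∧ C.index ≠ 0 ∧ C.index ≤ J ∧
    ∀ i, ∀ c ∈ C, ∀ x ∈ lser N i, ⁅c, x⁆ ∈ lser N (i + 1)

/-- (S3) Baer: a group with a finite index hypercentral subgroup -/
def StBaer : Prop := ∀ (C : Type u) [Group C] (n : ℕ) (Z : ℕ → Subgroup C),
  (Z 0).FiniteIndex → Z n = ⊥ → (∀ i, (Z i).FG) → (∀ i, Z (i + 1) ≤ Z i) →
  (∀ i, ∀ x ∈ Z i, ∀ c : C, ⁅c, x⁆ ∈ Z (i + 1)) →
  ∃ T : Subgroup C, T.Normal ∧ Finite T ∧ Iso T ⊤ ∧
    ∃ k, (⊤ : Subgroup C).lowerCentralSeries k ≤ T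

/-- (S4) index of the `J`-th powers in a poly-`ℤ` group -/
def StPow : Prop := ∀ (h J : ℕ), 0 < J → ∀ (L : Type u) [Group L], PolyZ h L →
  (pw L J).index ≠ 0 ∧ (pw L J).index ≤ J ^ h

/-- (S5) local structure -/
def StLoc : Prop := ∀ D m : ℕ, ∃ J M : ℕ, 0 < J ∧ ∀ (B : Type u) [Group B] [Group.FG B],
  GrowthLE B D → (∀ F : Subgroup B, Finite F → Nat.card F ≤ m) →
  (pw B J).index ≠ 0 ∧ (pw B J).index ≤ M ∧
  ∃ T : Subgroup B, T.Normal ∧ Finite T ∧ T ≤ pw B J ∧ Iso T (pw B J) ∧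
    ∃ k, (pw B J).lowerCentralSeries k ≤ T

/-- (S6) structure of `K` -/
def StK : Prop := ∀ (D m : ℕ) (K : Type u) [Group K], GrowthLE K D →
  (∀ F : Subgroup K, Finite F → Nat.card F ≤ m) →
  ∃ C T : Subgroup K, C.Characteristic ∧ T.Characteristic ∧ C.FiniteIndex ∧ Finite T ∧ T ≤ C ∧
    Iso T C ∧ ∀ B : Subgroup K, B.FG → B ≤ C → ∃ k, B.lowerCentralSeries k ≤ T

/-- torsion-free, locally (finitely generated nilpotent, of Hirsch length at most `h₀`) -/
structure LocNil (h₀ : ℕ) (K : Type u) [Group K] : Prop where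
  tf : TF K
  nil : ∀ B : Subgroup K, B.FG → Group.IsNilpotent B
  pz : ∀ B : Subgroup K, B.FG → ∃ h ≤ h₀, PolyZ h B

/-- (S7) the output of QA7: `H` = the finite index subgroup on which the characters live, `K` =
their kernel -/
def StQA7 : Prop := ∀ (D m : ℕ) (H : Type u) [Group H] [Group.FG H] (K : Subgroup H), K.Normal →
  GrowthLE K D → (∀ F : Subgroup H, Finite F → Nat.card F ≤ m) → (∀ x y : H, ⁅x, y⁆ ∈ K) →
  ∃ T : Subgroup H, ∃ _ : T.Normal, Finite T ∧ ∃ P : Subgroup (H ⧸ T), P.FiniteIndex ∧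
    ∃ (l : ℕ) (π : P →* Multiplicative (Fin l → ℤ)), Function.Surjective π ∧ LocNil D π.ker

/-- (S8) finite by virtually polycyclic -/
def StFinExt : Prop := ∀ (H : Type u) [Group H] (T : Subgroup H) [T.Normal], Finite T →
  IsVirtuallyPolycyclic (H ⧸ T) → IsVirtuallyPolycyclic H

end Vale.Agent.P188.QA7
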