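import Vale.Agent.P188.QA7.Defs
import Vale.Agent.P188.Reduce
import Vale.Agent.P188.H789.FinalB

/-!
P188, end of route A: extensions by finite normal subgroups.
-/

universe u v w

namespace Vale.Agent.P188.QA7

open Vale.Agent.P188.H796
open scoped commutatorElement Pointwise

theorem cycStep_fg {G : Type u} [Group G] {N M : Subgroup G} {t : G} (hs : CycStep N M t)
    (h : N.FG) : M.FG := by
  classical
  obtain ⟨S, hS⟩ := h
  refine ⟨insert t S, le_antisymm ?_ ?_⟩
  · rw [Subgroup.closure_le]
    intro x hx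
    rcases Finset.mem_insert.1 (by exact_mod_cast hx) with rfl | hx
    · exact hs.mem
    · exact hs.le (hS ▸ Subgroup.subset_closure hx)
  · intro g hg
    obtain ⟨k, hk⟩ := hs.dec g hg
    have e : g = t ^ k * ((t ^ k)⁻¹ * g) := by group
    rw [e]
    refine Subgroup.mul_mem _ (Subgroup.zpow_mem _ (Subgroup.subset_closure (by simp)) _) ?_
    rw [← hS] at hk
    exact Subgroup.closure_mono (by intro x hx; simp [Finset.mem_coe.1 hx]) hk

theorem fg_of_finite_sub {G : Type u} [Group G] (N : Subgroup G) [Finite N] : N.FG := by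
  have h : Group.FG N := inferInstance
  exact (Group.fg_iff_subgroup_fg N).1 h

theorem vps_comap {H : Type u} {G : Type v} [Group H] [Group G] (f : H →* G)
    (hf : Function.Surjective f) [Finite f.ker] {M : Subgroup G} (h : PCS M) :
    VPS (M.comap f) ∧ (M.comap f).FG := by
  induction h with
  | bot =>
    rw [MonoidHom.comap_bot]
    refine ⟨⟨⊥, bot_le, .bot, ?_⟩, fg_of_finite_sub _⟩
    rw [Subgroup.relIndex_bot_left]
    exact Nat.card_pos.ne'
  | @step N M t _ hs ih =>
    obtain ⟨s, rfl⟩ := hf t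
    have hcs : CycStep (N.comap f) (M.comap f) s := by
      refine ⟨Subgroup.comap_mono hs.le, hs.mem, ?_, ?_, ?_⟩
      · intro n hn
        have := hs.conj (f n) hn
        simpa using this
      · intro n hn
        have := hs.conj' (f n) hn
        simpa using this
      · intro g hg
        obtain ⟨k, hk⟩ := hs.dec (f g) hg
        exact ⟨k, by simpa using hk⟩
    exact ⟨ih.1.step hcs ((Group.fg_iff_subgroup_fg _).2 ih.2), cycStep_fg hcs ih.2⟩

/-- (S8) -/
theorem stFinExt : StFinExt.{u} := by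
  intro H _ T _ hT h
  obtain ⟨P, hP, hP'⟩ := isVirtuallyPolycyclic_iff.1 h
  have hker : (QuotientGroup.mk' T).ker = T := QuotientGroup.ker_mk' T
  have : Finite (QuotientGroup.mk' T).ker := by rw [hker]; exact hT
  obtain ⟨⟨Q, hQ, hQ', hi⟩, -⟩ := vps_comap (QuotientGroup.mk' T)
    (QuotientGroup.mk'_surjective T) hP'
  refine isVirtuallyPolycyclic_iff.2 ⟨Q, ⟨?_⟩, hQ'⟩
  rw [← Subgroup.relIndex_mul_index hQ]
  refine mul_ne_zero hi ?_
  rw [Subgroup.index_comap_of_surjective _ (QuotientGroup.mk'_surjective T)]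
  exact hP.index_ne_zero

/-- A group is coarsely equivalent to its quotient by a finite normal subgroup. -/
theorem coarseEquiv_quot {H : Type u} [Group H] (T : Subgroup H) [T.Normal] [hT : Finite T] :
    CoarseEquiv (H ⧸ T) H := by
  classical
  have hTf : (T : Set H).Finite := hT
  refine ⟨fun q => q.out, fun x => QuotientGroup.mk x, ?_, ?_, ?_, ?_⟩
  · intro A hA
    refine ⟨(Quotient.out '' A) * (T : Set H), (hA.image _).mul hTf, ?_⟩
    intro x y hxy
    refine ⟨(x⁻¹ * y).out, ⟨_, hxy, rfl⟩, ((x⁻¹ * y).out)⁻¹ * (x.out⁻¹ * y.out), ?_, ?_⟩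
    · have h1 : (QuotientGroup.mk ((x⁻¹ * y).out) : H ⧸ T) =
          QuotientGroup.mk (x.out⁻¹ * y.out) := by
        rw [QuotientGroup.mk_mul, QuotientGroup.mk_inv]
        rw [QuotientGroup.out_eq', QuotientGroup.out_eq', QuotientGroup.out_eq']
      exact QuotientGroup.eq.1 h1
    · simp
  · intro A hA
    exact ⟨(fun x : H => (QuotientGroup.mk x : H ⧸ T)) '' A, hA.image _,
      fun x y hxy => ⟨_, hxy, by simp⟩⟩
  · refine ⟨{1}, Set.finite_singleton _, fun x => ?_⟩
    simp only [Function.comp_apply, Set.mem_singleton_iff]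
    rw [QuotientGroup.out_eq']
    simp
  · refine ⟨T, hTf, fun x => ?_⟩
    simp only [Function.comp_apply, SetLike.mem_coe]
    refine QuotientGroup.eq.1 ?_
    rw [QuotientGroup.out_eq']

end Vale.Agent.P188.QA7
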