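import Vale.Agent.P188.QA7.CS

/-!
P188, QA7: the structure of a group of bounded polynomial growth with bounded torsion
(not necessarily finitely generated) (helper83).
-/

universe u v

namespace Vale.Agent.P188.QA7

open Vale.Agent.P188.H754 Vale.Agent.P188.H796
open scoped commutatorElement Pointwise

theorem stLoc : StLoc.{u} := stLoc_of stNil stPZ stBaer

theorem cs_map {P : Type u} {P' : Type v} [Group P] [Group P'] (f : P →* P')
    (hf : Function.Injective f) {S : Set P} : ∀ (h : ℕ) (B : Subgroup P), H882.CS S h B →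
    H882.CS (f '' S) h (B.map f)
  | 0, B, hB => by
    have h1 : B = ⊥ := hB
    subst h1
    exact Subgroup.map_bot f
  | h + 1, B, hB => by
    obtain ⟨N, t, hz, hN, hS⟩ := hB
    refine ⟨N.map f, f t, ⟨Subgroup.map_mono hz.le, Subgroup.mem_map_of_mem f hz.mem, ?_, ?_, ?_, ?_⟩,
      cs_map f hf h N hN, ?_⟩
    · rintro _ ⟨g, hg, rfl⟩
      exact ⟨t * g * t⁻¹, hz.conj g hg, by simp⟩
    · rintro _ ⟨g, hg, rfl⟩
      exact ⟨t⁻¹ * g * t, hz.conj' g hg, by simp⟩
    · rintro _ ⟨b, hb, rfl⟩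
      obtain ⟨i, hi⟩ := hz.gen b hb
      exact ⟨i, b * t ^ i, hi, by simp⟩
    · rintro i ⟨g, hg, hgi⟩
      rw [← map_zpow] at hgi
      exact hz.free i (hf hgi ▸ hg)
    · rintro _ ⟨p, hp, rfl⟩
      refine ⟨?_, t⁻¹ * (p * t * p⁻¹), (hS p hp).2, by simp⟩
      rintro _ ⟨g, hg, rfl⟩
      exact ⟨p * g * p⁻¹, (hS p hp).1 g hg, by simp⟩

section glob

variable {K : Type u} [Group K]

/-- `J`-th powers of a subgroup -/
def pwS (J : ℕ) (B : Subgroup K) : Subgroup K := (pw B J).map B.subtype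

theorem pwS_mono (J : ℕ) {B B' : Subgroup K} (h : B ≤ B') : pwS J B ≤ pwS J B' := by
  rintro _ ⟨x, hx, rfl⟩
  exact ⟨Subgroup.inclusion h x, map_pw J (Subgroup.inclusion h) hx, rfl⟩

theorem pwS_le (J : ℕ) (B : Subgroup K) : pwS J B ≤ pw K J := by
  rintro _ ⟨x, hx, rfl⟩
  exact map_pw J B.subtype hx

theorem exists_pwS {J : ℕ} {x : K} (hx : x ∈ pw K J) : ∃ B : Subgroup K, B.FG ∧ x ∈ pwS J B := by
  classical
  induction hx using Subgroup.closure_induction with
  | mem x hx =>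
    obtain ⟨y, rfl⟩ := hx
    have hy : y ∈ Subgroup.closure ({y} : Set K) := Subgroup.subset_closure rfl
    exact ⟨Subgroup.closure {y}, ⟨{y}, by simp⟩, ⟨⟨y, hy⟩ ^ J, pow_mem_pw J _, rfl⟩⟩
  | one => exact ⟨⊥, ⟨∅, by simp⟩, one_mem _⟩
  | mul a b _ _ ha hb =>
    obtain ⟨B, hB, hB'⟩ := ha
    obtain ⟨B₁, hB₁, hB₁'⟩ := hb
    exact ⟨B ⊔ B₁, hB.sup hB₁, mul_mem (pwS_mono J le_sup_left hB') (pwS_mono J le_sup_right hB₁')⟩
  | inv a _ ha =>
    obtain ⟨B, hB, hB'⟩ := ha
    exact ⟨B, hB, inv_mem hB'⟩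

theorem exists_pwS_finset {J : ℕ} (F : Finset K) (hF : ∀ x ∈ F, x ∈ pw K J) :
    ∃ B : Subgroup K, B.FG ∧ ∀ x ∈ F, x ∈ pwS J B := by
  classical
  induction F using Finset.induction_on with
  | empty => exact ⟨⊥, ⟨∅, by simp⟩, by simp⟩
  | insert a F _ ih =>
    obtain ⟨B, hB, hB'⟩ := ih fun x hx => hF x (Finset.mem_insert_of_mem hx)
    obtain ⟨B₁, hB₁, hB₁'⟩ := exists_pwS (hF a (Finset.mem_insert_self a F))
    refine ⟨B ⊔ B₁, hB.sup hB₁, fun x hx => ?_⟩
    rcases Finset.mem_insert.1 hx with rfl | hx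
    · exact pwS_mono J le_sup_right hB₁'
    · exact pwS_mono J le_sup_left (hB' x hx)

theorem growth_sub {D : ℕ} (hG : GrowthLE K D) (B : Subgroup K) : GrowthLE B D := hG.subgroup B

/-- the local structure, for a finitely generated subgroup -/
theorem loc_sub {D m J M : ℕ}
    (hloc : ∀ (B : Type u) [Group B] [Group.FG B], GrowthLE B D →
      (∀ F : Subgroup B, Finite F → Nat.card F ≤ m) → (pw B J).index ≠ 0 ∧ (pw B J).index ≤ M ∧
      ∃ T : Subgroup B, T.Normal ∧ Finite T ∧ T ≤ pw B J ∧ Iso T (pw B J) ∧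
        ∃ k, (pw B J).lowerCentralSeries k ≤ T)
    (hG : GrowthLE K D) (hm : ∀ F : Subgroup K, Finite F → Nat.card F ≤ m) (B : Subgroup K)
    (hB : B.FG) : (pw B J).index ≠ 0 ∧ (pw B J).index ≤ M ∧ ∃ T : Subgroup K, Finite T ∧
      T ≤ pwS J B ∧ Iso T (pwS J B) ∧ ∃ k, (pwS J B).lowerCentralSeries k ≤ T := by
  have hfg : Group.FG B := (Group.fg_iff_subgroup_fg B).2 hB
  have hcard : ∀ (F : Subgroup B), Finite F → Nat.card F ≤ m := by
    intro F hF
    have h1 := hm (F.map B.subtype)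
      (Finite.of_surjective _ (F.equivMapOfInjective B.subtype B.subtype_injective).surjective)
    rwa [Nat.card_congr (F.equivMapOfInjective B.subtype B.subtype_injective).toEquiv.symm] at h1
  obtain ⟨h1, h2, T, -, hTf, hTle, hTi, k, hk⟩ := hloc B (growth_sub hG B) hcard
  refine ⟨h1, h2, T.map B.subtype, ?_, Subgroup.map_mono hTle, ?_, k, ?_⟩
  · exact Finite.of_surjective _ (T.equivMapOfInjective B.subtype B.subtype_injective).surjective
  · rintro _ ⟨x, hx, rfl⟩ e he ⟨y, hy, hyx⟩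
    refine ⟨x, hTi x hx e he ?_, rfl⟩
    have : x ^ e = y := Subtype.ext (by simpa using hyx.symm)
    rw [this]; exact hy
  · rw [pwS, ← Subgroup.map_lowerCentralSeries]
    exact Subgroup.map_mono hk

theorem tor_of_finite {T : Subgroup K} (hT : Finite T) {x : K} (hx : x ∈ T) :
    ∃ e : ℕ, e ≠ 0 ∧ x ^ e = 1 := by
  have := isOfFinOrder_of_finite (⟨x, hx⟩ : T)
  obtain ⟨e, he, h1⟩ := isOfFinOrder_iff_pow_eq_one.1 this
  exact ⟨e, he.ne', by simpa using congrArg (Subtype.val : T → K) h1⟩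

/-- **(QA7)** structure of a group of bounded polynomial growth with bounded torsion. -/
theorem qa7 (K : Type u) [Group K] (m D : ℕ)
    (hm : ∀ F : Subgroup K, Finite F → Nat.card F ≤ m) (hG : GrowthLE K D) :
    ∃ (C T : Subgroup K) (_ : C.Characteristic) (_ : T.Characteristic), C.FiniteIndex ∧
      T ≤ C ∧ Finite T ∧ Iso T C ∧
      ∀ B : Subgroup (K ⧸ T), B ≤ C.map (QuotientGroup.mk' T) →
        B.FG → ∃ h ≤ D, H882.CS (B : Set (K ⧸ T)) h B := by
  classical
  obtain ⟨J, M, hJ, hloc0⟩ := stLoc.{u} D m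
  have hloc := fun (B : Subgroup K) (hB : B.FG) => loc_sub hloc0 hG hm B hB
  have hCchar : (pw K J).Characteristic := by
    rw [Subgroup.characteristic_iff_map_le]
    rintro φ _ ⟨x, hx, rfl⟩
    exact map_pw J φ.toMonoidHom hx
  -- finite index
  have hfi : (pw K J).FiniteIndex := by
    refine ⟨?_⟩
    by_contra h0
    have hinf : Infinite (K ⧸ pw K J) := by
      rw [Subgroup.index, Nat.card_eq_zero] at h0
      rcases h0 with h0 | h0
      · exact (h0.false (QuotientGroup.mk (1 : K))).elim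
      · exact h0
    obtain ⟨F, hF⟩ := Infinite.exists_subset_card_eq (K ⧸ pw K J) (M + 1)
    choose r hr using (QuotientGroup.mk_surjective : Function.Surjective
      (QuotientGroup.mk : K → K ⧸ pw K J))
    let B : Subgroup K := Subgroup.closure ((F.image r : Finset K) : Set K)
    have hBfg : B.FG := ⟨F.image r, rfl⟩
    obtain ⟨h1, h2, -⟩ := hloc B hBfg
    have hfin : Finite (B ⧸ pw B J) := Nat.finite_of_card_ne_zero h1
    have hrB : ∀ z : F, r z ∈ B := fun z =>
      Subgroup.subset_closure (Finset.mem_coe.2 (Finset.mem_image_of_mem r z.2))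
    let f : F → B ⧸ pw B J := fun z => QuotientGroup.mk ⟨r z, hrB z⟩
    have hinj : Function.Injective f := by
      intro a b hab
      apply Subtype.ext
      rw [← hr a, ← hr b, QuotientGroup.eq]
      have h3 := QuotientGroup.eq.1 hab
      exact map_pw J B.subtype h3
    have h3 := Nat.card_le_card_of_injective f hinj
    have h4 : Nat.card F = M + 1 := by simp [hF]
    rw [h4] at h3
    have h5 : Nat.card (B ⧸ pw B J) ≤ M := h2
    omega
  -- the torsion
  have hmulT : ∀ x y : K, x ∈ pw K J → y ∈ pw K J → (∃ e : ℕ, e ≠ 0 ∧ x ^ e = 1) →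
      (∃ e : ℕ, e ≠ 0 ∧ y ^ e = 1) → ∃ e : ℕ, e ≠ 0 ∧ (x * y) ^ e = 1 := by
    rintro x y hx hy ⟨e, he, hxe⟩ ⟨e', he', hye⟩
    obtain ⟨B, hB, hB'⟩ := exists_pwS_finset {x, y} (by
      intro z hz
      rcases Finset.mem_insert.1 hz with rfl | hz
      · exact hx
      · rw [Finset.mem_singleton.1 hz]; exact hy)
    obtain ⟨-, -, T, hTf, -, hTi, -⟩ := hloc B hB
    have h1 : x ∈ T := hTi x (hB' x (by simp)) e he (by rw [hxe]; exact one_mem _)
    have h2 : y ∈ T := hTi y (hB' y (by simp)) e' he' (by rw [hye]; exact one_mem _)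
    exact tor_of_finite hTf (mul_mem h1 h2)
  let T : Subgroup K :=
    { carrier := {x | x ∈ pw K J ∧ ∃ e : ℕ, e ≠ 0 ∧ x ^ e = 1}
      one_mem' := ⟨one_mem _, 1, one_ne_zero, by simp⟩
      mul_mem' := by
        rintro x y ⟨hx, hx'⟩ ⟨hy, hy'⟩
        exact ⟨mul_mem hx hy, hmulT x y hx hy hx' hy'⟩
      inv_mem' := by
        rintro x ⟨hx, e, he, hxe⟩
        exact ⟨inv_mem hx, e, he, by rw [inv_pow, hxe, inv_one]⟩ }
  have hTmem : ∀ x, x ∈ T ↔ x ∈ pw K J ∧ ∃ e : ℕ, e ≠ 0 ∧ x ^ e = 1 := fun _ => Iff.rfl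
  have hTle : T ≤ pw K J := fun x hx => hx.1
  have hTchar : T.Characteristic := by
    rw [Subgroup.characteristic_iff_map_le]
    rintro φ _ ⟨x, ⟨hx, e, he, hxe⟩, rfl⟩
    refine ⟨map_pw J φ.toMonoidHom hx, e, he, ?_⟩
    change (φ x) ^ e = 1
    rw [← map_pow, hxe, map_one]
  have hTiso : Iso T (pw K J) := by
    rintro x hx e he ⟨-, f, hf, hxf⟩
    exact ⟨hx, e * f, mul_ne_zero he hf, by rw [pow_mul, hxf]⟩
  have hTfin : Finite T := by
    by_contra hinf
    rw [not_finite_iff_infinite] at hinf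
    obtain ⟨F, hF⟩ := Infinite.exists_subset_card_eq T (m + 1)
    obtain ⟨B, hB, hB'⟩ := exists_pwS_finset (J := J) (F.image (Subtype.val : T → K)) (by
      intro x hx
      obtain ⟨y, -, rfl⟩ := Finset.mem_image.1 hx
      exact y.2.1)
    obtain ⟨-, -, T', hTf', -, hTi', -⟩ := hloc B hB
    have h1 : ∀ x ∈ F.image (Subtype.val : T → K), x ∈ T' := by
      intro x hx
      obtain ⟨y, hy, rfl⟩ := Finset.mem_image.1 hx
      obtain ⟨-, e, he, hye⟩ := y.2
      exact hTi' _ (hB' _ hx) e he (by rw [hye]; exact one_mem _)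
    have h2 : (F.image (Subtype.val : T → K)).card = m + 1 := by
      rw [Finset.card_image_of_injective _ Subtype.val_injective, hF]
    have h3 : m + 1 ≤ Nat.card T' := by
      have h5 : (F.image (Subtype.val : T → K)).card =
          Nat.card (F.image (Subtype.val : T → K)) := by
        rw [Nat.card_eq_fintype_card, Fintype.card_coe]
      rw [← h2, h5]
      exact Nat.card_le_card_of_injective
        (fun x : (F.image (Subtype.val : T → K)) => (⟨x, h1 x x.2⟩ : T'))
        (fun a b hab => Subtype.ext (congrArg (Subtype.val : T' → K) hab))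
    have h4 := hm T' hTf'
    omega
  refine ⟨pw K J, T, hCchar, hTchar, hfi, hTle, hTfin, hTiso, ?_⟩
  intro B hBC hBfg
  have hfg : Group.FG B := (Group.fg_iff_subgroup_fg B).2 hBfg
  have hgr : GrowthLE B D :=
    (growthLE_of_surjective hG (QuotientGroup.mk' T) (QuotientGroup.mk'_surjective T)).subgroup B
  -- torsion free
  have htf : TF B := by
    intro y e he hye
    obtain ⟨c, hc, hcy⟩ := hBC y.2
    have h1 : c ^ e ∈ T := by
      rw [← QuotientGroup.eq_one_iff]
      have h2 := congrArg (Subtype.val : B → K ⧸ T) hye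
      rw [Subgroup.coe_pow, ← hcy] at h2
      exact h2
    have h2 := hTiso c hc e he h1
    apply Subtype.ext
    rw [← hcy]
    exact (QuotientGroup.eq_one_iff c).2 h2
  -- nilpotent
  have hnil : Group.IsNilpotent B := by
    obtain ⟨S, hS⟩ := hBfg
    have h1 : ∀ y ∈ S, ∃ c ∈ pw K J, QuotientGroup.mk' T c = y := by
      intro y hy
      have : y ∈ B := hS ▸ Subgroup.subset_closure (Finset.mem_coe.2 hy)
      obtain ⟨c, hc, hcy⟩ := hBC this
      exact ⟨c, hc, hcy⟩
    choose! c hc hcy using h1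
    obtain ⟨B', hB', hB''⟩ := exists_pwS_finset (J := J) (S.image c) (by
      intro x hx
      obtain ⟨y, hy, rfl⟩ := Finset.mem_image.1 hx
      exact hc y hy)
    obtain ⟨-, -, T', hTf', hTle', -, k, hk⟩ := hloc B' hB'
    have h2 : B ≤ (pwS J B').map (QuotientGroup.mk' T) := by
      rw [← hS, Subgroup.closure_le]
      intro y hy
      exact ⟨c y, hB'' _ (Finset.mem_image_of_mem c (Finset.mem_coe.1 hy)), hcy y hy⟩
    rw [Subgroup.isNilpotent_iff_lowerCentralSeries]
    refine ⟨k, ?_⟩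
    rw [eq_bot_iff]
    refine (Subgroup.lowerCentralSeries_mono k h2).trans ?_
    change ((pwS J B').map (QuotientGroup.mk' T)).lowerCentralSeries k ≤ ⊥
    rw [← Subgroup.map_lowerCentralSeries]
    rintro _ ⟨x, hx, rfl⟩
    rw [Subgroup.mem_bot]
    refine (QuotientGroup.eq_one_iff x).2 ?_
    have h3 : x ∈ T' := hk hx
    exact ⟨pwS_le J B' (hTle' h3), tor_of_finite hTf' h3⟩
  obtain ⟨h, hh, hcs⟩ := exists_CS hgr hnil htf
  refine ⟨h, hh, ?_⟩
  have h1 := cs_map B.subtype B.subtype_injective h ⊤ hcs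
  rw [Set.image_univ, ← MonoidHom.range_eq_map, Subgroup.range_subtype] at h1
  have h2 : Set.range B.subtype = (B : Set (K ⧸ T)) := by
    ext x; simp
  rw [h2] at h1
  exact h1

end glob

end Vale.Agent.P188.QA7
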