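import Vale.Agent.P188.QA7.End1
import Vale.Agent.P188.QA7.Final

/-!
P188, end of route A: tools.
-/

universe u v w

namespace Vale.Agent.P188.QA7

open Vale.Agent.P188.H796
open scoped commutatorElement Pointwise

theorem map_comap_of_le {P : Type u} {P' : Type v} [Group P] [Group P'] (f : P →* P')
    {N : Subgroup P'} (h : N ≤ f.range) : (N.comap f).map f = N := by
  rw [Subgroup.map_comap_eq]
  exact inf_eq_right.2 h

/-- pull-back of a central series along an injective homomorphism -/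
theorem cs_comap {P : Type u} {P' : Type v} [Group P] [Group P'] (f : P →* P')
    (hf : Function.Injective f) {S : Set P'} : ∀ (h : ℕ) (B : Subgroup P'), B ≤ f.range →
    H882.CS S h B → H882.CS (f ⁻¹' S) h (B.comap f)
  | 0, B, _, hB => by
    have h1 : B = ⊥ := hB
    subst h1
    show (⊥ : Subgroup P').comap f = ⊥
    rw [MonoidHom.comap_bot]
    exact (MonoidHom.ker_eq_bot_iff f).2 hf
  | h + 1, B, hr, hB => by
    obtain ⟨N, t, hz, hN, hS⟩ := hB
    obtain ⟨s, rfl⟩ := hr hz.mem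
    refine ⟨N.comap f, s, ⟨Subgroup.comap_mono hz.le, hz.mem, ?_, ?_, ?_, ?_⟩,
      cs_comap f hf h N (hz.le.trans hr) hN, ?_⟩
    · intro g hg
      simpa using hz.conj (f g) hg
    · intro g hg
      simpa using hz.conj' (f g) hg
    · intro b hb
      obtain ⟨i, hi⟩ := hz.gen (f b) hb
      exact ⟨i, by simpa using hi⟩
    · intro i hi
      exact hz.free i (by simpa using hi)
    · intro p hp
      refine ⟨fun g hg => ?_, ?_⟩
      · simpa using (hS (f p) hp).1 (f g) hg
      · simpa using (hS (f p) hp).2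

theorem zc_map {P : Type u} {P' : Type v} [Group P] [Group P'] (f : P →* P')
    (hf : Function.Injective f) {K : Subgroup P} : ∀ (l : ℕ) (B : Subgroup P), H882.ZC K l B →
    H882.ZC (K.map f) l (B.map f)
  | 0, B, hB => by
    have h1 : B = K := hB
    subst h1
    exact rfl
  | l + 1, B, hB => by
    obtain ⟨N, t, hz, hN⟩ := hB
    refine ⟨N.map f, f t, ⟨Subgroup.map_mono hz.le, Subgroup.mem_map_of_mem f hz.mem, ?_, ?_, ?_,
      ?_⟩, zc_map f hf l N hN⟩
    · rintro _ ⟨g, hg, rfl⟩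
      exact ⟨t * g * t⁻¹, hz.conj g hg, by simp⟩
    · rintro _ ⟨g, hg, rfl⟩
      exact ⟨t⁻¹ * g * t, hz.conj' g hg, by simp⟩
    · rintro _ ⟨b, hb, rfl⟩
      obtain ⟨i, hi⟩ := hz.gen b hb
      exact ⟨i, b * t ^ i, hi, by simp⟩
    · rintro i ⟨g, hg, hgi⟩
      rw [← map_zpow] at hgi
      exact hz.free i (hf hgi ▸ hg)

theorem cycStep_of_zext {P : Type u} [Group P] {N B : Subgroup P} {t : P}
    (h : H882.ZExt N B t) : CycStep N B t := by
  refine ⟨h.le, h.mem, h.conj, h.conj', fun g hg => ?_⟩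
  obtain ⟨i, hi⟩ := h.gen g hg
  refine ⟨-i, ?_⟩
  have h1 := conj_zpow h.conj h.conj' i _ hi
  have e : t ^ i * (g * t ^ i) * (t ^ i)⁻¹ = (t ^ (-i))⁻¹ * g := by
    rw [zpow_neg]; group
  rwa [e] at h1

theorem pcs_of_cs {P : Type u} [Group P] {S : Set P} : ∀ (h : ℕ) (B : Subgroup P),
    H882.CS S h B → PCS B
  | 0, B, hB => by
    have h1 : B = ⊥ := hB
    subst h1
    exact .bot
  | h + 1, B, hB => by
    obtain ⟨N, t, hz, hN, -⟩ := hB
    exact .step (pcs_of_cs h N hN) (cycStep_of_zext hz)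

theorem pcs_of_zc {P : Type u} [Group P] {K : Subgroup P} (hK : PCS K) : ∀ (l : ℕ)
    (B : Subgroup P), H882.ZC K l B → PCS B
  | 0, B, hB => by
    have h1 : B = K := hB
    subst h1
    exact hK
  | l + 1, B, hB => by
    obtain ⟨N, t, hz, hN⟩ := hB
    exact .step (pcs_of_zc hK l N hN) (cycStep_of_zext hz)

theorem fg_of_map_injective {P : Type u} {P' : Type v} [Group P] [Group P'] (f : P →* P')
    (hf : Function.Injective f) {A : Subgroup P} (h : (A.map f).FG) : A.FG := by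
  classical
  obtain ⟨S, hS⟩ := h
  have h1 : ∀ s : P', ∃ a : P, s ∈ S → f a = s := by
    intro s
    by_cases hs : s ∈ S
    · have h2 : s ∈ A.map f := hS ▸ Subgroup.subset_closure hs
      obtain ⟨a, -, ha⟩ := h2
      exact ⟨a, fun _ => ha⟩
    · exact ⟨1, fun h => absurd h hs⟩
  choose g hg using h1
  refine ⟨S.image g, Subgroup.map_injective hf ?_⟩
  rw [MonoidHom.map_closure, ← hS]
  congr 1
  ext x
  simp only [Finset.coe_image, Set.mem_image, Finset.mem_coe, exists_exists_and_eq_and]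
  constructor
  · rintro ⟨a, ha, rfl⟩
    rw [hg a ha]; exact ha
  · intro hx
    exact ⟨x, hx, hg x hx⟩

/-- a finitely generated abelian quotient maps to a free abelian group with finite kernel -/
theorem exists_coords' {G : Type u} [Group G] [Group.FG G] (N : Subgroup G) [N.Normal]
    (hc : ∀ x y : G, ⁅x, y⁆ ∈ N) : ∃ (k : ℕ) (f : G →* Multiplicative (Fin k → ℤ)),
      N ≤ f.ker ∧ N.relIndex f.ker ≠ 0 := by
  classical
  have hcomm : ∀ x y : G ⧸ N, x * y = y * x := by
    intro x y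
    obtain ⟨x, rfl⟩ := QuotientGroup.mk'_surjective N x
    obtain ⟨y, rfl⟩ := QuotientGroup.mk'_surjective N y
    rw [← map_mul, ← map_mul]
    refine QuotientGroup.eq.2 ?_
    have h1 := hc y⁻¹ x⁻¹
    rw [commutatorElement_def] at h1
    have e : (x * y)⁻¹ * (y * x) = y⁻¹ * x⁻¹ * (y⁻¹)⁻¹ * (x⁻¹)⁻¹ := by group
    rw [e]; exact h1
  let inst : CommGroup (G ⧸ N) := { (inferInstance : Group (G ⧸ N)) with mul_comm := hcomm }
  have hfg0 : AddGroup.FG (Additive (G ⧸ N)) := by
    rw [AddGroup.fg_iff_addMonoid_fg, ← Monoid.fg_iff_add_fg, ← Group.fg_iff_monoid_fg]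
    infer_instance
  have hfin : Module.Finite ℤ (Additive (G ⧸ N)) := Module.Finite.iff_addGroup_fg.2 hfg0
  let τ := Submodule.torsion ℤ (Additive (G ⧸ N))
  have hτfg : Module.Finite ℤ τ := inferInstance
  have hτtor : Module.IsTorsion ℤ τ := Submodule.torsion_isTorsion
  have hτ : Finite τ := Module.finite_of_fg_torsion _ hτtor
  obtain ⟨r, b⟩ : Σ r : ℕ, Module.Basis (Fin r) ℤ (Additive (G ⧸ N) ⧸ τ) :=
    Module.basisOfFiniteTypeTorsionFree'
  let φ : Additive (G ⧸ N) →+ (Fin r → ℤ) :=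
    (b.equivFun.toLinearMap.comp τ.mkQ).toAddMonoidHom
  let f : G →* Multiplicative (Fin r → ℤ) :=
    (AddMonoidHom.toMultiplicativeRight φ).comp (QuotientGroup.mk' N)
  have hf : ∀ x : G, x ∈ f.ker ↔ (Additive.ofMul (QuotientGroup.mk' N x)) ∈ τ := by
    intro x
    rw [MonoidHom.mem_ker]
    have h1 : f x = Multiplicative.ofAdd (φ (Additive.ofMul (QuotientGroup.mk' N x))) := rfl
    rw [h1, ← Submodule.Quotient.mk_eq_zero, ofAdd_eq_one]
    show b.equivFun (τ.mkQ _) = 0 ↔ _
    rw [LinearEquiv.map_eq_zero_iff]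
    rfl
  have hNf : N ≤ f.ker := by
    intro x hx
    rw [hf]
    have h1 : QuotientGroup.mk' N x = 1 := by
      rw [← MonoidHom.mem_ker, QuotientGroup.ker_mk']; exact hx
    rw [h1]
    exact τ.zero_mem
  refine ⟨r, f, hNf, ?_⟩
  have hinj : Function.Injective (fun q : f.ker ⧸ N.subgroupOf f.ker =>
      (⟨Additive.ofMul (QuotientGroup.mk' N (q.out : G)), (hf _).1 q.out.2⟩ : τ)) := by
    intro q q' h
    have h1 : (QuotientGroup.mk' N (q.out : G)) = QuotientGroup.mk' N (q'.out : G) :=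
      congrArg (fun x : τ => (x : Additive (G ⧸ N)).toMul) h
    rw [← q.out_eq, ← q'.out_eq]
    refine QuotientGroup.eq.2 ?_
    rw [Subgroup.mem_subgroupOf]
    exact QuotientGroup.eq.1 h1
  have : Finite (f.ker ⧸ N.subgroupOf f.ker) := Finite.of_injective _ hinj
  rw [Subgroup.relIndex]
  exact Subgroup.index_ne_zero_of_finite

end Vale.Agent.P188.QA7
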