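import Vale.Agent.P188.QA7.End2
import Vale.Agent.P188.H789.FinalA
import Vale.Agent.P188.H882.D4b
import Vale.Agent.P188.H882.QA5
import Vale.Agent.P188.H235.QA8

/-!
P188, end of route A: `EndA` from `QA6`, `QA8` and the duality part.
-/

universe u v w

namespace Vale.Agent.P188.QA7

open Vale.Agent.P188.H796 Finsupp
open scoped commutatorElement Pointwise

/-- the hypotheses of `QA6` which come from the duality of `P` -/
def DOut (n : ℕ) (P : Type) [Group P] : Prop :=
  (∀ (M : Type) [AddCommGroup M] (ρ : P →* AddMonoid.End M), ∀ q ≥ n + 2,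
      ∃ m : ℤ, m ≠ 0 ∧ ∀ z ∈ H882.DG P M q, H882.bM z ∈ H882.Rl ρ (⊤ : Subgroup P) →
        H882.Null ρ ⊤ q (m • z)) ∧
  ∃ c : Ch P →ₗ[ℤ] ℤ, (∀ (g : P) (u : Ch P), c (act g u) = c u) ∧
      (∀ u ∈ Sp (Gr (n + 2) : Set (List P)), c (bd u) = 0) ∧
      ∃ z ∈ Sp (Gr (n + 1) : Set (List P)),
        H882.bM (H882.tp z (1 : ℤ)) ∈
          H882.Rl (X := P) (M := ℤ) (1 : P →* AddMonoid.End ℤ) (⊤ : Subgroup P) ∧
        c z ≠ 0

/-- **the duality part** (D1-D4 and QA5) -/
def DPart : Prop :=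
  ∀ (n : ℕ) (Γ H : Type) [Group Γ] [Group H] [Group.FG H], PolyZ n Γ → CoarseEquiv H Γ →
    ∃ Hp : Subgroup H, Hp.FiniteIndex ∧ ∀ P : Subgroup H, P ≤ Hp → P.FiniteIndex → DOut n P

/-- the end of route A, for a group without finite normal obstruction -/
theorem endA_core (h6 : H882.QA6) (h8 : H882.QA8) {n : ℕ} {H : Type} [Group H] [Group.FG H]
    {Hp : Subgroup H} (hHp : Hp.FiniteIndex)
    (hD : ∀ P : Subgroup H, P ≤ Hp → P.FiniteIndex → DOut n P)
    {K C : Subgroup H} [hK : K.Normal] [hC : C.Normal] (hCK : C ≤ K) (hfi : C.relIndex K ≠ 0)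
    (hcomm : ∀ x y : H, ⁅x, y⁆ ∈ K) {D : ℕ}
    (hCS : ∀ B : Subgroup H, B ≤ C → B.FG → ∃ h ≤ D, H882.CS (B : Set H) h B) :
    IsVirtuallyPolycyclic H := by
  classical
  have hHpfg : Group.FG Hp := Subgroup.fg_of_index_ne_zero _
  obtain ⟨k, f, hf1, hf2⟩ := exists_coords' (K.subgroupOf Hp) (fun x y => by
    rw [Subgroup.mem_subgroupOf]
    exact hcomm x y)
  have hle : C.subgroupOf Hp ≤ K.subgroupOf Hp := Subgroup.comap_mono hCK
  have hfi' : (C.subgroupOf Hp).relIndex (K.subgroupOf Hp) ≠ 0 :=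
    Subgroup.relIndex_comap_ne_zero _ hfi
  have hfi2 : ((C.subgroupOf Hp).subgroupOf f.ker).FiniteIndex := by
    refine ⟨?_⟩
    show (C.subgroupOf Hp).relIndex f.ker ≠ 0
    rw [← Subgroup.relIndex_mul_relIndex _ _ _ hle hf1]
    exact mul_ne_zero hfi' hf2
  obtain ⟨l, P₀, hP₀, hint, hcm, hzc⟩ := h8 Hp (C.subgroupOf Hp) f.ker (hle.trans hf1) hfi2 k f rfl
  let P : Subgroup H := P₀.map Hp.subtype
  have hPle : P ≤ Hp := Subgroup.map_subtype_le P₀
  have hPfi : P.FiniteIndex := by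
    refine ⟨?_⟩
    rw [Subgroup.index_map_subtype]
    exact mul_ne_zero hP₀.index_ne_zero hHp.index_ne_zero
  -- the isomorphism
  let e : P₀ ≃* P := P₀.equivMapOfInjective Hp.subtype Hp.subtype_injective
  have he : ∀ x : P₀, ((e x : P) : H) = ((x : Hp) : H) := fun x => rfl
  have hKe : ((C.subgroupOf Hp).subgroupOf P₀).map e.toMonoidHom = C.subgroupOf P := by
    ext y
    constructor
    · rintro ⟨x, hx, rfl⟩
      exact hx
    · intro hy
      obtain ⟨x, rfl⟩ := e.surjective y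
      exact ⟨x, hy, rfl⟩
  have hZ : H882.ZC (C.subgroupOf P) l ⊤ := by
    have h1 := zc_map e.toMonoidHom e.injective l ⊤ hzc
    rw [hKe, Subgroup.map_top_of_surjective _ e.surjective] at h1
    exact h1
  obtain ⟨hvan, c, hc1, hc2, z, hz1, hz2, hz3⟩ := hD P hPle hPfi
  have hKfg : (C.subgroupOf P).FG := by
    refine h6 P (C.subgroupOf P) ?_ l hZ D ?_ n hvan c hc1 hc2 z hz1 hz2 hz3
    · intro a b
      obtain ⟨a, rfl⟩ := e.surjective a
      obtain ⟨b, rfl⟩ := e.surjective b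
      exact hcm a b
    · intro B hB hBfg
      have h1 : B.map P.subtype ≤ C := by
        rintro _ ⟨x, hx, rfl⟩
        exact hB hx
      obtain ⟨h, hh, hcs⟩ := hCS (B.map P.subtype) h1 (fg_map hBfg P.subtype)
      refine ⟨h, hh, ?_⟩
      have h2 := cs_comap P.subtype P.subtype_injective h (B.map P.subtype)
        (Subgroup.map_le_range _ _) hcs
      have h3 : (B.map P.subtype).comap P.subtype = B :=
        Subgroup.comap_map_eq_self_of_injective P.subtype_injective B
      rw [h3] at h2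
      have h4 : P.subtype ⁻¹' ((B.map P.subtype : Subgroup H) : Set H) = (B : Set P) := by
        have := congrArg (fun X : Subgroup P => (X : Set P)) h3
        exact this
      rwa [h4] at h2
  -- conclusion
  have h1 : ((C.subgroupOf P).map P.subtype) ≤ C := by
    rintro _ ⟨x, hx, rfl⟩
    exact hx
  obtain ⟨h, -, hcs⟩ := hCS _ h1 (fg_map hKfg P.subtype)
  have hpc : PCS ((C.subgroupOf P).map P.subtype) := pcs_of_cs h _ hcs
  have hZ' := zc_map P.subtype P.subtype_injective l ⊤ hZ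
  have hPpc := pcs_of_zc hpc l _ hZ'
  rw [← MonoidHom.range_eq_map, Subgroup.range_subtype] at hPpc
  exact isVirtuallyPolycyclic_iff.2 ⟨P, hPfi, hPpc⟩

theorem dPart : DPart := by
  intro n Γ H _ _ _ hZ hc
  obtain ⟨Hp, hHp, h⟩ := H882.d4P hc hZ
  refine ⟨Hp, hHp, fun P hP hPf => ⟨fun M _ ρ q hq => ?_, h P hP hPf⟩⟩
  obtain ⟨m, hm, h5⟩ := H882.qa5 ((coarseEquiv_of_finiteIndex P hPf).symm.trans hc) hZ
  exact ⟨m, hm, h5 M ρ q hq⟩

/-- **The algebraic end of route A**, from `QA6`. -/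
theorem endA_of (h6 : H882.QA6) : H789.EndA := by
  classical
  intro n Γ H _ _ _ hZ hc K hKn hcomm D hG
  obtain ⟨m, hm0, hm⟩ := card_dvd_of_coarseEquiv hc hZ
  obtain ⟨C, T, hCc, hTc, hCfi, hTC, hTfin, hiso, hCS⟩ := qa7 K m D (fun F hF => by
    have h1 : Finite (F.map K.subtype) :=
      Finite.of_equiv F (F.equivMapOfInjective K.subtype K.subtype_injective).toEquiv
    have h2 := Nat.le_of_dvd hm0 (hm _ h1)
    rwa [Nat.card_congr (F.equivMapOfInjective K.subtype K.subtype_injective).toEquiv.symm] at h2)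
    hG
  let T' : Subgroup H := T.map K.subtype
  have hT'n : T'.Normal := inferInstance
  have hT'f : Finite T' :=
    Finite.of_equiv T (T.equivMapOfInjective K.subtype K.subtype_injective).toEquiv
  let C' : Subgroup H := C.map K.subtype
  have hC'n : C'.Normal := inferInstance
  have hTC' : T' ≤ C' := Subgroup.map_mono hTC
  have hCK' : C' ≤ K := Subgroup.map_subtype_le C
  let ι : K ⧸ T →* H ⧸ T' := QuotientGroup.map T T' K.subtype (Subgroup.le_comap_map _ _)
  have hι : Function.Injective ι := by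
    rw [← MonoidHom.ker_eq_bot_iff, eq_bot_iff]
    intro x hx
    obtain ⟨x, rfl⟩ := QuotientGroup.mk'_surjective T x
    rw [MonoidHom.mem_ker] at hx
    have h1 : QuotientGroup.mk' T' (x : H) = 1 := hx
    rw [← MonoidHom.mem_ker, QuotientGroup.ker_mk'] at h1
    obtain ⟨y, hy, hyx⟩ := h1
    have h2 : y = x := Subtype.ext hyx
    rw [h2] at hy
    rw [Subgroup.mem_bot, ← MonoidHom.mem_ker, QuotientGroup.ker_mk']
    exact hy
  refine stFinExt H T' hT'f ?_
  obtain ⟨Hp, hHp, hD⟩ := dPart n Γ (H ⧸ T') hZ ((coarseEquiv_quot T').trans hc)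
  have hKn' : (K.map (QuotientGroup.mk' T')).Normal :=
    Subgroup.Normal.map hKn _ (QuotientGroup.mk'_surjective T')
  have hCn' : (C'.map (QuotientGroup.mk' T')).Normal :=
    Subgroup.Normal.map hC'n _ (QuotientGroup.mk'_surjective T')
  refine endA_core h6 H235.qa8 hHp hD (K := K.map (QuotientGroup.mk' T'))
    (C := C'.map (QuotientGroup.mk' T')) (Subgroup.map_mono hCK') ?_ ?_ (D := D) ?_
  · rw [Subgroup.relIndex_map_map, QuotientGroup.ker_mk', sup_eq_left.2 hTC',
      sup_eq_left.2 (hTC'.trans hCK')]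
    have h1 : (⊤ : Subgroup K).map K.subtype = K := by
      rw [← MonoidHom.range_eq_map, Subgroup.range_subtype]
    have h2 : C'.relIndex K = C.index := by
      rw [← Subgroup.relIndex_top_right,
        ← Subgroup.relIndex_map_map_of_injective C ⊤ K.subtype_injective, h1]
    rw [h2]
    exact hCfi.index_ne_zero
  · intro x y
    obtain ⟨x, rfl⟩ := QuotientGroup.mk'_surjective T' x
    obtain ⟨y, rfl⟩ := QuotientGroup.mk'_surjective T' y
    rw [← map_commutatorElement]
    exact Subgroup.mem_map_of_mem _ (hcomm x y)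
  · intro B hB hBfg
    have h1 : C'.map (QuotientGroup.mk' T') = (C.map (QuotientGroup.mk' T)).map ι := by
      rw [Subgroup.map_map, Subgroup.map_map]
      rfl
    rw [h1] at hB
    have h2 : (B.comap ι).map ι = B := map_comap_of_le ι (hB.trans (Subgroup.map_le_range _ _))
    have h3 : (B.comap ι).FG := fg_of_map_injective ι hι (by rw [h2]; exact hBfg)
    have h4 : B.comap ι ≤ C.map (QuotientGroup.mk' T) := by
      have := Subgroup.comap_mono (f := ι) hB
      rwa [Subgroup.comap_map_eq_self_of_injective hι] at this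
    obtain ⟨h, hh, hcs⟩ := hCS _ h4 h3
    refine ⟨h, hh, ?_⟩
    have h5 := cs_map ι hι h _ hcs
    rw [h2] at h5
    have h6 : ι '' ((B.comap ι : Subgroup (K ⧸ T)) : Set (K ⧸ T)) = (B : Set (H ⧸ T')) := by
      have := congrArg (fun X : Subgroup (H ⧸ T') => (X : Set (H ⧸ T'))) h2
      exact this
    rwa [h6] at h5

end Vale.Agent.P188.QA7
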