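import Vale.Agent.P188.QA7.Mink

/-!
P188, QA7, (S5): local structure of a group of bounded polynomial growth (helper83).
-/

universe u v

namespace Vale.Agent.P188.QA7

open Vale.Agent.P188.H754 Vale.Agent.P188.H796
open scoped commutatorElement Pointwise

theorem growthLE_of_surjective {G : Type u} {G' : Type v} [Group G] [Group G'] {D : ℕ}
    (h : GrowthLE G D) (f : G →* G') (hf : Function.Surjective f) : GrowthLE G' D := by
  classical
  intro F hF
  obtain ⟨F₀, hF₀, hF₀'⟩ : ∃ F₀ : Set G, F₀.Finite ∧ f '' F₀ = F := by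
    refine ⟨Function.surjInv hf '' F, hF.image _, ?_⟩
    rw [Set.image_image]
    simp [Function.surjInv_eq hf]
  obtain ⟨C, hC⟩ := h F₀ hF₀
  refine ⟨C, fun n => ?_⟩
  have : F ^ n = f '' (F₀ ^ n) := by rw [← hF₀', Set.image_pow]
  rw [this]
  exact (Set.ncard_image_le (finite_pow hF₀ n)).trans (hC n)

theorem tf_quotient {C : Type u} [Group C] {T : Subgroup C} [T.Normal] (h : Iso T ⊤) :
    TF (C ⧸ T) := by
  intro x e he hx
  induction x using QuotientGroup.induction_on with
  | H x =>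
    rw [← QuotientGroup.mk_pow, QuotientGroup.eq_one_iff] at hx
    rw [QuotientGroup.eq_one_iff]
    exact h x trivial e he hx

theorem nilpotent_quotient {C : Type u} [Group C] {T : Subgroup C} [T.Normal] {k : ℕ}
    (h : (⊤ : Subgroup C).lowerCentralSeries k ≤ T) : Group.IsNilpotent (C ⧸ T) := by
  rw [Subgroup.nilpotent_iff_lowerCentralSeries]
  refine ⟨k, ?_⟩
  have h1 : (⊤ : Subgroup (C ⧸ T)) = (⊤ : Subgroup C).map (QuotientGroup.mk' T) := by
    rw [← MonoidHom.range_eq_map, MonoidHom.range_eq_top.2 (QuotientGroup.mk'_surjective T)]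
  rw [h1, ← Subgroup.map_lowerCentralSeries, eq_bot_iff]
  refine (Subgroup.map_mono h).trans ?_
  rw [Subgroup.map_le_iff_le_comap]
  intro x hx
  rw [Subgroup.mem_comap, Subgroup.mem_bot]
  exact (QuotientGroup.eq_one_iff x).2 hx

/-- index of the `J`-th powers in a finite-by-(poly-`ℤ`) group -/
theorem pw_index_of_quotient {C : Type u} [Group C] {T : Subgroup C} [T.Normal] (hT : Finite T)
    {m h J : ℕ} (hJ : 0 < J) (hm : Nat.card T ≤ m) (hp : PolyZ h (C ⧸ T)) :
    (pw C J).index ≠ 0 ∧ (pw C J).index ≤ m * J ^ h := by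
  classical
  obtain ⟨hfin, hcard⟩ := stPow_aux h J hJ _ hp
  have h1 : (pw C J) ≤ (pw (C ⧸ T) J).comap (QuotientGroup.mk' T) :=
    fun x hx => Subgroup.mem_comap.2 (map_pw J (QuotientGroup.mk' T) hx)
  -- every element is (representative) * (element of T) * (element of pw)
  have hrep : ∀ z : (C ⧸ T) ⧸ pw (C ⧸ T) J, ∃ x : C,
      (QuotientGroup.mk (QuotientGroup.mk x : C ⧸ T) : (C ⧸ T) ⧸ pw (C ⧸ T) J) = z := by
    intro z
    induction z using QuotientGroup.induction_on with
    | H y =>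
      induction y using QuotientGroup.induction_on with
      | H x => exact ⟨x, rfl⟩
  choose r hr using hrep
  let f : T × ((C ⧸ T) ⧸ pw (C ⧸ T) J) → C ⧸ pw C J := fun q =>
    QuotientGroup.mk (r q.2 * (q.1 : C))
  have hlift : ∀ y ∈ pw (C ⧸ T) J, ∃ x ∈ pw C J, (QuotientGroup.mk x : C ⧸ T) = y := by
    intro y hy
    induction hy using Subgroup.closure_induction with
    | mem y hy =>
      obtain ⟨w, rfl⟩ := hy
      induction w using QuotientGroup.induction_on with
      | H w => exact ⟨w ^ J, pow_mem_pw J w, by rw [QuotientGroup.mk_pow]⟩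
    | one => exact ⟨1, one_mem _, rfl⟩
    | mul a b _ _ ha hb =>
      obtain ⟨x, hx, rfl⟩ := ha
      obtain ⟨y, hy, rfl⟩ := hb
      exact ⟨x * y, mul_mem hx hy, by rw [QuotientGroup.mk_mul]⟩
    | inv a _ ha =>
      obtain ⟨x, hx, rfl⟩ := ha
      exact ⟨x⁻¹, inv_mem hx, by rw [QuotientGroup.mk_inv]⟩
  have hf : Function.Surjective f := by
    intro z
    induction z using QuotientGroup.induction_on with
    | H x =>
      obtain ⟨z, hz⟩ : ∃ z : (C ⧸ T) ⧸ pw (C ⧸ T) J,
        z = QuotientGroup.mk (QuotientGroup.mk x : C ⧸ T) := ⟨_, rfl⟩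
      have h2 := hr z
      rw [hz] at h2
      rw [QuotientGroup.eq, ← QuotientGroup.mk_inv, ← QuotientGroup.mk_mul, ← hz] at h2
      obtain ⟨p, hp, hpe⟩ := hlift _ h2
      rw [QuotientGroup.eq] at hpe
      -- p⁻¹ * ((r z)⁻¹ * x) ∈ T
      have hT2 : p * (p⁻¹ * ((r z)⁻¹ * x)) * p⁻¹ ∈ T := Subgroup.Normal.conj_mem ‹_› _ hpe p
      refine ⟨(⟨_, hT2⟩, z), ?_⟩
      change (QuotientGroup.mk (r z * (p * (p⁻¹ * ((r z)⁻¹ * x)) * p⁻¹)) : C ⧸ pw C J) =
        QuotientGroup.mk x
      rw [QuotientGroup.eq]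
      have e : (r z * (p * (p⁻¹ * ((r z)⁻¹ * x)) * p⁻¹))⁻¹ * x = x⁻¹ * (x * p * x⁻¹) * x := by
        group
      have e2 : (r z * (p * (p⁻¹ * ((r z)⁻¹ * x)) * p⁻¹))⁻¹ * x = x⁻¹ * (x * p * x⁻¹) * x⁻¹⁻¹ := by
        rw [e, inv_inv]
      rw [e2]
      exact Subgroup.Normal.conj_mem (pw_normal J) _
        (Subgroup.Normal.conj_mem (pw_normal J) _ hp x) x⁻¹
  have hfin2 : Finite (C ⧸ pw C J) := Finite.of_surjective f hf
  refine ⟨Nat.card_pos.ne', ?_⟩
  refine (Nat.card_le_card_of_surjective f hf).trans ?_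
  rw [Nat.card_prod]
  exact Nat.mul_le_mul hm hcard

theorem fg_subgroupOf {B : Type u} [Group B] {L C : Subgroup B} (h : L ≤ C) (hL : L.FG) :
    (L.subgroupOf C).FG := by
  rw [← Group.fg_iff_subgroup_fg] at hL ⊢
  exact Group.fg_of_surjective (f := (Subgroup.subgroupOfEquivOfLe h).symm.toMonoidHom)
    (Subgroup.subgroupOfEquivOfLe h).symm.surjective

theorem stLoc_of (hNil : StNil.{u}) (hPZ : StPZ.{u}) (hBaer : StBaer.{u}) : StLoc.{u} := by
  classical
  intro D m
  choose Jf hJf using stMink.{u}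
  obtain ⟨Jm, hJm⟩ : ∃ Jm, ∀ h ≤ D, Jf h ≤ Jm :=
    ⟨(Finset.range (D + 1)).sup Jf, fun h hh =>
      Finset.le_sup (f := Jf) (Finset.mem_range.2 (Nat.lt_succ_of_le hh))⟩
  have hJpos : 0 < Jm.factorial := Nat.factorial_pos _
  refine ⟨Jm.factorial, Jm * (m * Jm.factorial ^ D), hJpos, ?_⟩
  intro B _ hfg hG hfinB
  obtain ⟨J, hJ⟩ : ∃ J, J = Jm.factorial := ⟨_, rfl⟩
  rw [← hJ] at hJpos ⊢
  obtain ⟨N, hN, hfi, hnil, h, hh, hp⟩ := hNil D B hG
  obtain ⟨C, hC, hNC, hCi0, hCi, hact⟩ := hJf h B N hN hfi hnil hp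
  have hCJm : C.index ≤ Jm := hCi.trans (hJm h hh)
  have hCfi : C.FiniteIndex := ⟨hCi0⟩
  have hCfg : Group.FG C := Subgroup.fg_of_index_ne_zero C
  -- Baer
  obtain ⟨T₀, hT₀n, hT₀f, hT₀i, k, hk⟩ := hBaer C h (fun i => (lser N i).subgroupOf C)
    (by
      have : (N.subgroupOf C).FiniteIndex := inferInstance
      exact this)
    (by
      rw [lser_eq_bot hnil hp]
      exact Subgroup.bot_subgroupOf C)
    (fun i => by
      obtain ⟨mi, -, hmi⟩ := lser_polyZ hnil hp i
      exact fg_subgroupOf ((lser_le N i).trans hNC)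
        ((Group.fg_iff_subgroup_fg _).1 (PolyZ.fg mi hmi)))
    (fun i => by
      intro x hx
      rw [Subgroup.mem_subgroupOf] at hx ⊢
      exact lstep_le _ _ hx)
    (fun i x hx c => by
      rw [Subgroup.mem_subgroupOf] at hx ⊢
      exact hact i c c.2 x hx)
  have hpwC : pw B J ≤ C := by
    rw [pw_le_iff]
    intro y
    have h1 : y ^ C.index ∈ C := Subgroup.pow_index_mem C y
    have h2 : C.index ∣ J := by
      rw [hJ]; exact Nat.dvd_factorial (Nat.pos_of_ne_zero hCi0) hCJm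
    obtain ⟨q, hq⟩ := h2
    rw [hq, pow_mul]
    exact C.pow_mem h1 q
  have hcardT : Nat.card T₀ ≤ m := by
    have h1 := hfinB (T₀.map C.subtype)
      ((Finite.of_surjective _ (T₀.equivMapOfInjective C.subtype
        C.subtype_injective).surjective))
    rwa [Nat.card_congr (T₀.equivMapOfInjective C.subtype C.subtype_injective).toEquiv.symm] at h1
  -- index
  have hind : (pw C J).index ≠ 0 ∧ (pw C J).index ≤ m * J ^ D := by
    have hQfg : Group.FG (C ⧸ T₀) := QuotientGroup.fg _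
    have hQG : GrowthLE (C ⧸ T₀) D :=
      growthLE_of_surjective (hG.subgroup C) (QuotientGroup.mk' T₀)
        (QuotientGroup.mk'_surjective T₀)
    obtain ⟨h', hh', hp'⟩ := hPZ D (C ⧸ T₀) hQG (nilpotent_quotient hk) (tf_quotient hT₀i)
    obtain ⟨a1, a2⟩ := pw_index_of_quotient hT₀f hJpos hcardT hp'
    exact ⟨a1, a2.trans (Nat.mul_le_mul_left _ (Nat.pow_le_pow_right hJpos hh'))⟩
  have hmapC : (pw C J).map C.subtype ≤ pw B J := by
    rintro _ ⟨x, hx, rfl⟩
    exact map_pw J C.subtype hx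
  have hrel : ((pw C J).map C.subtype).index = (pw C J).index * C.index := by
    have h1 : (pw C J).map C.subtype ≤ C := by
      rintro _ ⟨x, hx, rfl⟩
      exact x.2
    rw [← Subgroup.relIndex_mul_index h1]
    congr 1
    rw [Subgroup.relIndex]
    congr 1
    rw [← Subgroup.comap_subtype]
    exact Subgroup.comap_map_eq_self_of_injective C.subtype_injective _
  have hidx0 : ((pw C J).map C.subtype).index ≠ 0 := by
    rw [hrel]; exact mul_ne_zero hind.1 hCi0
  have hfiM : ((pw C J).map C.subtype).FiniteIndex := ⟨hidx0⟩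
  -- torsion elements of `C`
  have htor : ∀ x : C, x ∈ T₀ ↔ ∃ e : ℕ, e ≠ 0 ∧ x ^ e = 1 := by
    intro x
    constructor
    · intro hx
      have := isOfFinOrder_of_finite (⟨x, hx⟩ : T₀)
      obtain ⟨e, he, h1⟩ := isOfFinOrder_iff_pow_eq_one.1 this
      exact ⟨e, he.ne', by simpa using congrArg (Subtype.val : T₀ → C) h1⟩
    · rintro ⟨e, he, h1⟩
      exact hT₀i x trivial e he (by rw [h1]; exact one_mem _)
  refine ⟨(Subgroup.finiteIndex_of_le hmapC).index_ne_zero, ?_, ?_⟩
  · refine (Subgroup.index_antitone hmapC).trans ?_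
    rw [hrel, mul_comm]
    exact Nat.mul_le_mul hCJm hind.2
  · refine ⟨(T₀.map C.subtype) ⊓ pw B J, ?_, ?_, inf_le_right, ?_, k, ?_⟩
    · have h1 : (T₀.map C.subtype).Normal := by
        constructor
        rintro _ ⟨x, hx, rfl⟩ g
        obtain ⟨e, he, h1⟩ := (htor x).1 hx
        refine ⟨⟨g * x * g⁻¹, hC.conj_mem x x.2 g⟩, ?_, rfl⟩
        refine (htor _).2 ⟨e, he, ?_⟩
        apply Subtype.ext
        have h2 : (x : B) ^ e = 1 := by simpa using congrArg (Subtype.val : C → B) h1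
        simp [conj_pow, h2]
      infer_instance
    · have h1 : Finite (T₀.map C.subtype) :=
        Finite.of_surjective _ (T₀.equivMapOfInjective C.subtype C.subtype_injective).surjective
      exact Finite.of_injective
        (Subgroup.inclusion (inf_le_left : (T₀.map C.subtype) ⊓ pw B J ≤ T₀.map C.subtype))
        (Subgroup.inclusion_injective _)
    · intro x hx e he hxe
      refine ⟨⟨⟨x, hpwC hx⟩, ?_, rfl⟩, hx⟩
      obtain ⟨y, hy, hye⟩ := hxe.1
      refine hT₀i _ trivial e he ?_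
      have h1 : (⟨x, hpwC hx⟩ : C) ^ e = y := by
        apply Subtype.ext
        exact hye.symm
      rw [h1]; exact hy
    · refine le_inf ?_ (Subgroup.lowerCentralSeries_le_self _ _)
      refine (Subgroup.lowerCentralSeries_mono k hpwC).trans ?_
      change C.lowerCentralSeries k ≤ _
      rw [← Subgroup.top_subtype_lowerCentralSeries]
      exact Subgroup.map_mono hk

end Vale.Agent.P188.QA7
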