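import Vale.Agent.P188.QA7.Defs

/-!
P188, QA7, (S4): the subgroup generated by the `J`-th powers (helper83).
-/

universe u

namespace Vale.Agent.P188.QA7

open Vale.Agent.P188.H754 Vale.Agent.P188.H796
open scoped commutatorElement

section pw

variable {G : Type u} [Group G]

theorem pow_mem_pw (J : ℕ) (x : G) : x ^ J ∈ pw G J := Subgroup.subset_closure ⟨x, rfl⟩

theorem map_pw {G' : Type u} [Group G'] (J : ℕ) (f : G →* G') {x : G} (hx : x ∈ pw G J) :
    f x ∈ pw G' J := by
  have h : pw G J ≤ (pw G' J).comap f := by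
    rw [pw, Subgroup.closure_le]
    rintro _ ⟨y, rfl⟩
    rw [SetLike.mem_coe, Subgroup.mem_comap, map_pow]
    exact pow_mem_pw J _
  exact h hx

instance pw_normal (J : ℕ) : (pw G J).Normal := by
  constructor
  intro x hx g
  exact map_pw J (MulAut.conj g).toMonoidHom hx

theorem pw_le_iff {J : ℕ} {H : Subgroup G} : pw G J ≤ H ↔ ∀ y : G, y ^ J ∈ H := by
  rw [pw, Subgroup.closure_le]
  constructor
  · intro h y
    exact h ⟨y, rfl⟩
  · rintro h _ ⟨y, rfl⟩
    exact h y

end pw

theorem stPow_aux : ∀ (h J : ℕ), 0 < J → ∀ (L : Type u) [Group L], PolyZ h L →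
    Finite (L ⧸ pw L J) ∧ Nat.card (L ⧸ pw L J) ≤ J ^ h
  | 0, J, hJ, L, _, hL => by
    have hs : Subsingleton L := hL
    have : Subsingleton (L ⧸ pw L J) := ⟨fun a b => by
      induction a using QuotientGroup.induction_on
      induction b using QuotientGroup.induction_on
      exact congrArg _ (Subsingleton.elim _ _)⟩
    refine ⟨inferInstance, ?_⟩
    rw [pow_zero]
    exact Finite.card_le_one_iff_subsingleton.2 this
  | h + 1, J, hJ, L, _, hL => by
    obtain ⟨φ, hφ, hk⟩ := hL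
    obtain ⟨hfin, hcard⟩ := stPow_aux h J hJ φ.ker hk
    obtain ⟨t, ht⟩ := hφ (Multiplicative.ofAdd 1)
    let m : (φ.ker ⧸ pw φ.ker J) →* (L ⧸ pw L J) :=
      QuotientGroup.map _ _ φ.ker.subtype (fun x hx => map_pw J φ.ker.subtype hx)
    let f : Fin J × (φ.ker ⧸ pw φ.ker J) → L ⧸ pw L J := fun q =>
      (QuotientGroup.mk (t ^ (q.1 : ℕ)) : L ⧸ pw L J) * m q.2
    have hf : Function.Surjective f := by
      intro z
      induction z using QuotientGroup.induction_on with
      | H x =>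
        obtain ⟨k, hk⟩ : ∃ k : ℤ, k = Multiplicative.toAdd (φ x) := ⟨_, rfl⟩
        have hJ' : (J : ℤ) ≠ 0 := by exact_mod_cast hJ.ne'
        obtain ⟨r, hr, hr'⟩ : ∃ r : ℕ, r < J ∧ (r : ℤ) = k % J := by
          refine ⟨(k % J).toNat, ?_, Int.toNat_of_nonneg (Int.emod_nonneg _ hJ')⟩
          have h1 := Int.emod_lt_of_pos k (by exact_mod_cast hJ : (0 : ℤ) < J)
          have h2 := Int.emod_nonneg k hJ'
          omega
        have htk : ∀ k : ℤ, φ (t ^ k) = Multiplicative.ofAdd k := fun k => by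
          rw [map_zpow, ht, ← ofAdd_zsmul, smul_eq_mul, mul_one]
        have hy : (t ^ k)⁻¹ * x ∈ φ.ker := by
          rw [MonoidHom.mem_ker, map_mul, map_inv, htk, hk, ofAdd_toAdd]
          simp
        -- x = t ^ r * (t ^ J) ^ (k / J) * y
        refine ⟨(⟨r, hr⟩, QuotientGroup.mk ⟨(t ^ k)⁻¹ * x, hy⟩), ?_⟩
        change (QuotientGroup.mk (t ^ r) : L ⧸ pw L J) *
          QuotientGroup.mk ((t ^ k)⁻¹ * x) = QuotientGroup.mk x
        rw [← QuotientGroup.mk_mul, QuotientGroup.eq]
        have e1 : t ^ k = t ^ r * (t ^ J) ^ (k / J) := by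
          rw [← zpow_natCast t r, ← zpow_natCast t J, ← zpow_mul, ← zpow_add, hr',
            Int.emod_add_mul_ediv]
        have e2 : (t ^ r * ((t ^ k)⁻¹ * x))⁻¹ * x = x⁻¹ * (t ^ J) ^ (k / J) * x := by
          rw [mul_inv_rev, mul_inv_rev, inv_inv, e1]
          group
        rw [e2]
        have := (pw_normal (G := L) J).conj_mem _
          ((pw L J).zpow_mem (pow_mem_pw J t) (k / J)) x⁻¹
        rwa [inv_inv] at this
    refine ⟨Finite.of_surjective f hf, ?_⟩
    refine (Nat.card_le_card_of_surjective f hf).trans ?_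
    rw [Nat.card_prod, Nat.card_fin, pow_succ']
    exact Nat.mul_le_mul_left _ hcard

theorem stPow : StPow.{u} := by
  intro h J hJ L _ hL
  obtain ⟨h1, h2⟩ := stPow_aux h J hJ L hL
  refine ⟨?_, h2⟩
  exact Nat.card_pos.ne'

end Vale.Agent.P188.QA7
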