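import Vale.Agent.P188.QA7.MinkRing
import Vale.Agent.P188.QA7.Pow

/-!
P188, QA7, (S2): the action on the isolated lower central series is trivial on a subgroup of
bounded index (helper83).
-/

universe u

namespace Vale.Agent.P188.QA7

open Vale.Agent.P188.H754 Vale.Agent.P188.H796
open scoped commutatorElement

section act

variable {B : Type u} [Group B]

/-- conjugation as an endomorphism -/
def cjH (L : Subgroup B) [hL : L.Normal] (g : B) : L →* L where
  toFun x := ⟨g * x * g⁻¹, hL.conj_mem x x.2 g⟩
  map_one' := by ext; simp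
  map_mul' x y := by ext; simp

theorem cjH_coe (L : Subgroup B) [hL : L.Normal] (g : B) (x : L) :
    ((cjH L g x : L) : B) = g * x * g⁻¹ := rfl

theorem cjH_mul (L : Subgroup B) [hL : L.Normal] (a b : B) (x : L) :
    cjH L (a * b) x = cjH L a (cjH L b x) := by
  apply Subtype.ext
  simp only [cjH_coe]; group

theorem cjH_one (L : Subgroup B) [hL : L.Normal] (x : L) : cjH L 1 x = x := by
  apply Subtype.ext
  simp only [cjH_coe]; group

/-- the kernel of the action on `L / L^3` -/
def kerAct (L : Subgroup B) [hL : L.Normal] : Subgroup B where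
  carrier := {g | ∀ x : L, x⁻¹ * cjH L g x ∈ pw L 3}
  one_mem' := by
    intro x
    rw [cjH_one, inv_mul_cancel]
    exact (pw L 3).one_mem
  mul_mem' := by
    intro a b ha hb x
    have h1 : x⁻¹ * cjH L (a * b) x = (x⁻¹ * cjH L a x) * cjH L a (x⁻¹ * cjH L b x) := by
      apply Subtype.ext
      push_cast
      simp only [cjH_coe]
      push_cast
      simp only [cjH_coe]
      group
    rw [h1]
    exact (pw L 3).mul_mem (ha x) (map_pw 3 (cjH L a) (hb x))
  inv_mem' := by
    intro a ha x
    have h1 : x⁻¹ * cjH L a⁻¹ x = cjH L a⁻¹ ((x⁻¹ * cjH L a x)⁻¹) := by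
      apply Subtype.ext
      push_cast
      simp only [cjH_coe]
      push_cast
      simp only [cjH_coe]
      group
    rw [h1]
    exact map_pw 3 (cjH L a⁻¹) ((pw L 3).inv_mem (ha x))

theorem kerAct_index (L : Subgroup B) [hL : L.Normal] {n : ℕ} (hf : Finite (L ⧸ pw L 3))
    (hn : Nat.card (L ⧸ pw L 3) ≤ n) : (kerAct L).index ≠ 0 ∧ (kerAct L).index ≤ n ^ n := by
  classical
  let act : B → (L ⧸ pw L 3) → (L ⧸ pw L 3) := fun g =>
    QuotientGroup.map (pw L 3) (pw L 3) (cjH L g)
      (fun x hx => Subgroup.mem_comap.2 (map_pw 3 (cjH L g) hx))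
  have hact : ∀ g (x : L), act g (QuotientGroup.mk x) = QuotientGroup.mk (cjH L g x) :=
    fun _ _ => rfl
  let f : (B ⧸ kerAct L) → (L ⧸ pw L 3) → (L ⧸ pw L 3) :=
    Quotient.lift (fun g => act g) (by
      intro a b hab
      have hab' : a⁻¹ * b ∈ kerAct L := QuotientGroup.leftRel_apply.1 hab
      funext z
      induction z using QuotientGroup.induction_on with
      | H x =>
        rw [hact, hact, QuotientGroup.eq]
        have h1 := hab' x
        have h2 := map_pw 3 (cjH L a) h1
        have h3 : cjH L a (x⁻¹ * cjH L (a⁻¹ * b) x) = (cjH L a x)⁻¹ * cjH L b x := by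
          rw [map_mul, ← cjH_mul, mul_inv_cancel_left, map_inv]
        rw [h3] at h2
        exact h2)
  have hinj : Function.Injective f := by
    intro a b hab
    induction a using QuotientGroup.induction_on with
    | H a =>
      induction b using QuotientGroup.induction_on with
      | H b =>
        rw [QuotientGroup.eq]
        intro x
        have h1 : act a (QuotientGroup.mk x) = act b (QuotientGroup.mk x) :=
          congrFun hab (QuotientGroup.mk x)
        rw [hact, hact, QuotientGroup.eq] at h1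
        have h2 := map_pw 3 (cjH L a⁻¹) h1
        have h3 : cjH L a⁻¹ ((cjH L a x)⁻¹ * cjH L b x) = x⁻¹ * cjH L (a⁻¹ * b) x := by
          rw [map_mul, map_inv, ← cjH_mul, ← cjH_mul, inv_mul_cancel, cjH_one]
        rw [h3] at h2
        exact h2
  have hfin : Finite ((L ⧸ pw L 3) → (L ⧸ pw L 3)) := inferInstance
  have hfinB : Finite (B ⧸ kerAct L) := Finite.of_injective f hinj
  have hcard : Nat.card (B ⧸ kerAct L) ≤ n ^ n := by
    refine (Nat.card_le_card_of_injective f hinj).trans ?_
    rw [Nat.card_fun]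
    have hpos : 0 < n := lt_of_lt_of_le Nat.card_pos hn
    exact (Nat.pow_le_pow_left hn _).trans (Nat.pow_le_pow_right hpos hn)
  exact ⟨Nat.card_pos.ne', hcard⟩

end act

section main

variable {B : Type u} [Group B]

/-- the subgroup acting trivially on all factors of the isolated lower central series -/
def unip (N : Subgroup B) [hN : N.Normal] : Subgroup B where
  carrier := {c | ∀ i, ∀ x ∈ lser N i, ⁅c, x⁆ ∈ lser N (i + 1)}
  one_mem' := by
    intro i x hx
    rw [commutatorElement_one_left]
    exact one_mem _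
  mul_mem' := by
    intro a b ha hb i x hx
    have h1 : ⁅a * b, x⁆ = (a * ⁅b, x⁆ * a⁻¹) * ⁅a, x⁆ := by
      simp only [commutatorElement_def]; group
    rw [h1]
    exact mul_mem (Subgroup.Normal.conj_mem inferInstance _ (hb i x hx) a) (ha i x hx)
  inv_mem' := by
    intro a ha i x hx
    have h1 : ⁅a⁻¹, x⁆ = (a⁻¹ * ⁅a, x⁆ * a⁻¹⁻¹)⁻¹ := by
      simp only [commutatorElement_def]; group
    rw [h1]
    exact inv_mem (Subgroup.Normal.conj_mem inferInstance _ (ha i x hx) a⁻¹)

instance unip_normal (N : Subgroup B) [hN : N.Normal] : (unip N).Normal := by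
  constructor
  intro c hc g i x hx
  have h1 : ⁅g * c * g⁻¹, x⁆ = g * ⁅c, g⁻¹ * x * g⁆ * g⁻¹ := by
    simp only [commutatorElement_def]; group
  rw [h1]
  refine Subgroup.Normal.conj_mem inferInstance _ (hc i _ ?_) g
  have := Subgroup.Normal.conj_mem (inferInstance : (lser N i).Normal) x hx g⁻¹
  rwa [inv_inv] at this

theorem le_unip (N : Subgroup B) [hN : N.Normal] : N ≤ unip N := by
  intro c hc i x hx
  have h1 : ⁅c, x⁆ = ⁅x, c⁆⁻¹ := (commutatorElement_inv x c).symm
  rw [h1]
  exact inv_mem (comm_mem_lstep hx hc)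

/-- elements trivial modulo cubes act trivially -/
theorem mem_lser_of_kerAct (N : Subgroup B) [hN : N.Normal] (hfi : N.FiniteIndex)
    {h : ℕ} (hnil : Group.IsNilpotent N) (hp : PolyZ h N) (i : ℕ) {g : B}
    (hg : g ∈ kerAct (lser N i)) (x : B) (hx : x ∈ lser N i) : ⁅g, x⁆ ∈ lser N (i + 1) := by
  classical
  set L := lser N i with hL
  set L' := lser N (i + 1) with hL'
  have hL'L : L' ≤ L := lstep_le _ _
  obtain ⟨m, -, hm⟩ := lser_polyZ hnil hp i
  have hfgL : Group.FG L := PolyZ.fg m hm
  have hcommL : ∀ x y : L, ⁅(x : B), (y : B)⁆ ∈ L' := fun x y =>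
    comm_mem_lstep x.2 (lser_le N i y.2)
  let A := L ⧸ L'.subgroupOf L
  have hA : ∀ x y : A, x * y = y * x := by
    intro x y
    induction x using QuotientGroup.induction_on with
    | H x =>
      induction y using QuotientGroup.induction_on with
      | H y =>
        rw [← QuotientGroup.mk_mul, ← QuotientGroup.mk_mul, QuotientGroup.eq,
          Subgroup.mem_subgroupOf]
        have h1 : (((x * y)⁻¹ * (y * x) : L) : B) = ⁅(y : B)⁻¹, (x : B)⁻¹⁆ := by
          push_cast
          simp only [commutatorElement_def]; group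
        rw [h1]
        exact hcommL y⁻¹ x⁻¹
  have htf : TF A := by
    intro x e he hx
    induction x using QuotientGroup.induction_on with
    | H x =>
      rw [← QuotientGroup.mk_pow, QuotientGroup.eq_one_iff, Subgroup.mem_subgroupOf] at hx
      rw [QuotientGroup.eq_one_iff, Subgroup.mem_subgroupOf]
      obtain ⟨h1, h2⟩ := hx
      refine ⟨x.2, fun φ hφ => ?_⟩
      have h3 := h2 φ hφ
      have h4 : ev φ ((x : B) ^ e) (L.pow_mem x.2 e) = 0 := by
        rw [← h3]; exact ev_congr _ _ (by simp)
      rw [ev_pow] at h4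
      rcases mul_eq_zero.1 h4 with h5 | h5
      · exact absurd (by exact_mod_cast h5) he
      · exact h5
  let α : A → A := QuotientGroup.map (L'.subgroupOf L) (L'.subgroupOf L)
    (cjH L g) (by
      intro y hy
      rw [Subgroup.mem_comap, Subgroup.mem_subgroupOf, cjH_coe]
      rw [Subgroup.mem_subgroupOf] at hy
      exact Subgroup.Normal.conj_mem inferInstance _ hy g)
  have hαmk : ∀ y : L, α (QuotientGroup.mk y) = QuotientGroup.mk (cjH L g y) :=
    fun _ => rfl
  have hαpow : ∀ (n : ℕ) (y : L), α^[n] (QuotientGroup.mk y) =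
      QuotientGroup.mk (cjH L (g ^ n) y) := by
    intro n
    induction n with
    | zero => intro y; rw [pow_zero, cjH_one]; rfl
    | succ n ih =>
      intro y
      rw [Function.iterate_succ_apply, hαmk, ih, ← cjH_mul, ← pow_succ]
  -- a power of `g` lies in `N`
  obtain ⟨e, he, hge⟩ : ∃ e : ℕ, e ≠ 0 ∧ g ^ e ∈ N := by
    have := Subgroup.exists_pow_mem_of_index_ne_zero hfi.index_ne_zero g
    obtain ⟨e, h1, -, h2⟩ := this
    exact ⟨e, h1.ne', h2⟩
  have hfgA : Group.FG A := QuotientGroup.fg _
  have key := mink_group hA htf α (fun a b => map_mul _ a b) he (fun z => by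
    induction z using QuotientGroup.induction_on with
    | H y =>
      rw [hαpow, QuotientGroup.eq, Subgroup.mem_subgroupOf]
      have h1 : (((cjH L (g ^ e) y)⁻¹ * y : L) : B) = ⁅(y : B)⁻¹, g ^ e⁆⁻¹ := by
        push_cast
        rw [cjH_coe]
        simp only [commutatorElement_def]; group
      rw [h1]
      exact inv_mem (comm_mem_lstep (L.inv_mem y.2) hge)) (fun z => by
    induction z using QuotientGroup.induction_on with
    | H y =>
      have h1 := hg y
      -- modulo `L'`, every element of `pw L 3` is a cube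
      have h2 : ∀ w ∈ pw L 3, ∃ v : A, (QuotientGroup.mk w : A) = v ^ 3 := by
        intro w hw
        induction hw using Subgroup.closure_induction with
        | mem w hw => obtain ⟨v, rfl⟩ := hw; exact ⟨QuotientGroup.mk v, by simp⟩
        | one => exact ⟨1, by simp⟩
        | mul a b _ _ ha hb =>
          obtain ⟨v, hv⟩ := ha
          obtain ⟨v', hv'⟩ := hb
          exact ⟨v * v', by rw [QuotientGroup.mk_mul, hv, hv', (show Commute v v' from hA v v').mul_pow]⟩
        | inv a _ ha =>
          obtain ⟨v, hv⟩ := ha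
          exact ⟨v⁻¹, by rw [QuotientGroup.mk_inv, hv, inv_pow]⟩
      obtain ⟨v, hv⟩ := h2 _ h1
      refine ⟨v, ?_⟩
      rw [hαmk, ← hv, ← QuotientGroup.mk_mul, mul_inv_cancel_left]) (QuotientGroup.mk ⟨x, hx⟩)
  rw [hαmk, QuotientGroup.eq, Subgroup.mem_subgroupOf] at key
  have h2 : ⁅g, x⁆ = x * (((cjH L g ⟨x, hx⟩)⁻¹ * ⟨x, hx⟩ : L) : B)⁻¹ * x⁻¹ := by
    push_cast
    rw [cjH_coe]
    simp only [commutatorElement_def]; group
  rw [h2]
  exact Subgroup.Normal.conj_mem inferInstance _ (inv_mem key) x

theorem stMink : StMink.{u} := by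
  classical
  intro h
  refine ⟨((3 ^ h) ^ (3 ^ h)) ^ h, ?_⟩
  intro B _ N hN hfi hnil hp
  refine ⟨unip N, unip_normal N, le_unip N, ?_, ?_, fun i c hc x hx => hc i x hx⟩
  · exact (Subgroup.finiteIndex_of_le (le_unip N)).index_ne_zero
  · have hK : ∀ i : Fin h, (kerAct (lser N i)).index ≠ 0 ∧
        (kerAct (lser N i)).index ≤ (3 ^ h) ^ (3 ^ h) := by
      intro i
      obtain ⟨m, hm, hpm⟩ := lser_polyZ hnil hp i
      obtain ⟨h1, h2⟩ := stPow_aux m 3 (by norm_num) _ hpm
      refine kerAct_index _ h1 (h2.trans ?_)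
      exact Nat.pow_le_pow_right (by norm_num) (hm.trans (Nat.sub_le _ _))
    have hle : (⨅ i : Fin h, kerAct (lser N i)) ≤ unip N := by
      intro g hg i x hx
      by_cases hi : i < h
      · exact mem_lser_of_kerAct N hfi hnil hp i ((Subgroup.mem_iInf.1 hg) ⟨i, hi⟩) x hx
      · have h0 : lser N i = ⊥ := by
          obtain ⟨m, hm, hpm⟩ := lser_polyZ hnil hp i
          have : m = 0 := by omega
          subst this
          have h0 : Subsingleton (lser N i) := hpm
          exact Subgroup.eq_bot_of_subsingleton _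
        rw [h0, Subgroup.mem_bot] at hx
        rw [hx, commutatorElement_one_right]
        exact one_mem _
    have h1 : (⨅ i : Fin h, kerAct (lser N i)).index ≤ ((3 ^ h) ^ (3 ^ h)) ^ h := by
      refine (Subgroup.index_iInf_le _).trans ?_
      refine (Finset.prod_le_pow_card _ _ _ (fun i _ => (hK i).2)).trans ?_
      rw [Finset.card_univ, Fintype.card_fin]
    have h2 : (⨅ i : Fin h, kerAct (lser N i)).index ≠ 0 := by
      exact Subgroup.index_iInf_ne_zero fun i => (hK i).1
    exact (Nat.le_of_dvd (Nat.pos_of_ne_zero h2) (Subgroup.index_dvd_of_le hle)).trans h1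

end main

end Vale.Agent.P188.QA7
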