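import Vale.Agent.P188.QA7.Defs

/-!
P188, QA7: Minkowski's lemma (helper83).
-/

universe u

namespace Vale.Agent.P188.QA7

theorem one_add_pow {R : Type*} [Ring R] (x : R) (n : ℕ) :
    ∃ q : R, (1 + x) ^ n = 1 + (n : R) * x + x * x * q := by
  induction n with
  | zero => exact ⟨0, by simp⟩
  | succ n ih =>
    obtain ⟨q, hq⟩ := ih
    refine ⟨(n : R) + q + q * x, ?_⟩
    have hc : (n : R) * (x * x) = x * x * (n : R) := (Nat.cast_commute n (x * x)).eq
    have e : (1 + (n : R) * x + x * x * q) * (1 + x) =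
        1 + ((n : R) * x + x) + ((n : R) * (x * x) + x * x * q + x * x * (q * x)) := by
      noncomm_ring
    rw [pow_succ, hq, e, hc]
    push_cast
    noncomm_ring

section ring

variable {R : Type*} [Ring R]

theorem comm3 (k : ℕ) (g : R) : g * (3 : R) ^ k = (3 : R) ^ k * g := by
  have h : Commute ((3 : ℕ) : R) g := Nat.cast_commute 3 g
  have h2 := (h.pow_left k).eq
  push_cast at h2
  exact h2.symm

theorem step_coprime (htf : ∀ (n : ℕ) (f : R), n ≠ 0 → (n : R) * f = 0 → f = 0) {α : R} {e : ℕ}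
    (he : Nat.Coprime e 3) (hα : α ^ e = 1) {k : ℕ} {g : R}
    (hg : α - 1 = (3 : R) ^ (k + 1) * g) : ∃ g', α - 1 = (3 : R) ^ (k + 2) * g' := by
  obtain ⟨q, hq⟩ := one_add_pow (α - 1) e
  rw [add_sub_cancel, hα] at hq
  have h1 : (e : R) * (α - 1) + (α - 1) * (α - 1) * q = 0 := by
    have : (1 : R) + ((e : R) * (α - 1) + (α - 1) * (α - 1) * q) = 1 + 0 := by
      rw [add_zero, ← add_assoc]; exact hq.symm
    exact add_left_cancel this
  rw [hg] at h1
  have h2 : ((3 ^ (k + 1) : ℕ) : R) * ((e : R) * g + (3 : R) ^ (k + 1) * (g * g * q)) = 0 := by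
    have c1 : (e : R) * ((3 : R) ^ (k + 1) * g) = (3 : R) ^ (k + 1) * ((e : R) * g) := by
      rw [← mul_assoc, comm3, mul_assoc]
    have c2 : (3 : R) ^ (k + 1) * g * ((3 : R) ^ (k + 1) * g) * q =
        (3 : R) ^ (k + 1) * ((3 : R) ^ (k + 1) * (g * g * q)) := by
      have : g * ((3 : R) ^ (k + 1) * g) = (3 : R) ^ (k + 1) * (g * g) := by
        rw [← mul_assoc, comm3, mul_assoc]
      rw [mul_assoc ((3 : R) ^ (k + 1)) g, this]
      simp only [mul_assoc]
    rw [c1, c2] at h1
    push_cast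
    rw [mul_add]
    exact h1
  have h3 := htf _ _ (by positivity) h2
  -- Bezout
  obtain ⟨u, v, huv⟩ : ∃ u v : ℤ, u * e + v * 3 = 1 := by
    have := Nat.isCoprime_iff_coprime.2 he
    obtain ⟨u, v, h⟩ := this
    exact ⟨u, v, by exact_mod_cast h⟩
  have h4 : (e : R) * g = - ((3 : R) * ((3 : R) ^ k * (g * g * q))) := by
    rw [pow_succ', mul_assoc] at h3
    exact eq_neg_of_add_eq_zero_left h3
  refine ⟨(v : R) * g - (u : R) * ((3 : R) ^ k * (g * g * q)), ?_⟩
  have h5 : g = (3 : R) * ((v : R) * g - (u : R) * ((3 : R) ^ k * (g * g * q))) := by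
    have e1 : ((u : R) * (e : R) + (v : R) * 3) = 1 := by exact_mod_cast congrArg (Int.cast : ℤ → R) huv
    have c3 : (u : R) * ((3 : R) * ((3 : R) ^ k * (g * g * q))) =
        (3 : R) * ((u : R) * ((3 : R) ^ k * (g * g * q))) := by
      rw [← mul_assoc (u : R) (3 : R), (Int.cast_commute u (3 : R)).eq, mul_assoc]
    have c4 : (v : R) * (3 : R) * g = (3 : R) * ((v : R) * g) := by
      rw [(Int.cast_commute v (3 : R)).eq, mul_assoc]
    calc g = ((u : R) * (e : R) + (v : R) * 3) * g := by rw [e1, one_mul]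
      _ = (u : R) * ((e : R) * g) + (v : R) * 3 * g := by rw [add_mul, mul_assoc]
      _ = - (3 : R) * ((u : R) * ((3 : R) ^ k * (g * g * q))) + (3 : R) * ((v : R) * g) := by
          rw [h4, mul_neg, c3, c4, neg_mul]
      _ = _ := by noncomm_ring
  rw [hg, pow_succ (3 : R) (k + 1), mul_assoc]
  congr 1

theorem step_three (htf : ∀ (n : ℕ) (f : R), n ≠ 0 → (n : R) * f = 0 → f = 0) {α : R}
    (hα : α ^ 3 = 1) {k : ℕ} {g : R}
    (hg : α - 1 = (3 : R) ^ (k + 1) * g) : ∃ g', α - 1 = (3 : R) ^ (k + 2) * g' := by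
  have hx : 3 * (α - 1) + 3 * ((α - 1) * (α - 1)) + (α - 1) * ((α - 1) * (α - 1)) = 0 := by
    have e : 3 * (α - 1) + 3 * ((α - 1) * (α - 1)) + (α - 1) * ((α - 1) * (α - 1)) =
        α ^ 3 - 1 := by
      noncomm_ring
    rw [e, hα, sub_self]
  obtain ⟨w, hw⟩ : ∃ w : R, w = (3 : R) ^ (k + 1) := ⟨_, rfl⟩
  have hwc : ∀ g : R, g * w = w * g := fun g => by rw [hw]; exact comm3 _ g
  rw [hg, ← hw] at hx
  have c1 : w * g * (w * g) = w * (w * (g * g)) := by
    rw [mul_assoc w g, ← mul_assoc g w g, hwc g, mul_assoc w g g]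
  have c2 : w * g * (w * (w * (g * g))) = w * (w * (w * (g * (g * g)))) := by
    rw [mul_assoc w g, ← mul_assoc g w, hwc g, mul_assoc w g, ← mul_assoc g w, hwc g,
      mul_assoc w g]
  rw [c1, c2] at hx
  have hw3 : w = 3 * (3 : R) ^ k := by rw [hw, pow_succ']
  have h2 : ((3 ^ (k + 2) : ℕ) : R) *
      (g + w * (g * g) + (3 : R) ^ k * (w * (g * (g * g)))) = 0 := by
    have e1 : ((3 ^ (k + 2) : ℕ) : R) = 3 * w := by rw [hw]; push_cast; rw [← pow_succ']
    rw [e1]
    have e2 : 3 * w * (g + w * (g * g) + (3 : R) ^ k * (w * (g * (g * g)))) =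
        3 * (w * g) + 3 * (w * (w * (g * g))) + w * (3 * (3 : R) ^ k * (w * (g * (g * g)))) := by
      have e3 : (3 : R) * w = w * 3 := (hwc 3).symm ▸ rfl
      rw [mul_add, mul_add, mul_assoc 3 w g, mul_assoc 3 w (w * (g * g)), e3,
        mul_assoc w 3, mul_assoc 3 ((3 : R) ^ k)]
    rw [e2, ← hw3]
    exact hx
  have h3 := htf _ _ (by positivity) h2
  refine ⟨-((3 : R) ^ k * (g * g)) - (3 : R) ^ k * ((3 : R) ^ k * (g * (g * g))), ?_⟩
  have h5 : g = (3 : R) * (-((3 : R) ^ k * (g * g)) -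
      (3 : R) ^ k * ((3 : R) ^ k * (g * (g * g)))) := by
    have e4 : (3 : R) ^ k * (w * (g * (g * g))) = 3 * ((3 : R) ^ k * ((3 : R) ^ k *
        (g * (g * g)))) := by
      rw [hw3]
      have : (3 : R) ^ k * (3 * (3 : R) ^ k * (g * (g * g))) =
          ((3 : R) ^ k * 3) * ((3 : R) ^ k * (g * (g * g))) := by
        simp only [mul_assoc]
      rw [this, ← comm3 k (3 : R), mul_assoc]
    have e5 : w * (g * g) = 3 * ((3 : R) ^ k * (g * g)) := by rw [hw3, mul_assoc]
    rw [e4, e5, add_assoc] at h3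
    have h6 := eq_neg_of_add_eq_zero_left h3
    rw [mul_sub, mul_neg]
    rw [neg_add] at h6
    rw [← sub_eq_add_neg] at h6
    exact h6
  rw [hg, pow_succ (3 : R) (k + 1), mul_assoc]
  congr 1

theorem mink_ring (htf : ∀ (n : ℕ) (f : R), n ≠ 0 → (n : R) * f = 0 → f = 0)
    (hsep : ∀ f : R, (∀ k : ℕ, ∃ g, f = (3 : R) ^ k * g) → f = 0) {e : ℕ} (he : e ≠ 0)
    {α : R} (hα : α ^ e = 1) (h3 : ∃ g, α - 1 = 3 * g) : α = 1 := by
  have main : ∀ (β : R) (P : Prop), (∃ g, β - 1 = 3 * g) →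
      (∀ (k : ℕ) (g : R), β - 1 = (3 : R) ^ (k + 1) * g → ∃ g', β - 1 = (3 : R) ^ (k + 2) * g') →
      β = 1 := by
    intro β _ h0 hs
    have : ∀ k : ℕ, ∃ g, β - 1 = (3 : R) ^ (k + 1) * g := by
      intro k
      induction k with
      | zero => obtain ⟨g, hg⟩ := h0; exact ⟨g, by simpa using hg⟩
      | succ k ih => obtain ⟨g, hg⟩ := ih; exact hs k g hg
    refine sub_eq_zero.1 (hsep _ fun k => ?_)
    obtain ⟨g, hg⟩ := this k
    exact ⟨3 * g, by rw [hg, pow_succ, mul_assoc]⟩
  have hpow : ∀ (β : R) (n : ℕ), (∃ g, β - 1 = 3 * g) → ∃ g, β ^ n - 1 = 3 * g := by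
    rintro β n ⟨g, hg⟩
    obtain ⟨q, hq⟩ := one_add_pow (β - 1) n
    rw [add_sub_cancel] at hq
    refine ⟨(n : R) * g + g * (β - 1) * q, ?_⟩
    rw [hq, hg]
    have : (n : R) * (3 * g) = 3 * ((n : R) * g) := by
      rw [← mul_assoc, (Nat.cast_commute n (3 : R)).eq, mul_assoc]
    rw [add_assoc, add_sub_cancel_left, this]
    noncomm_ring
  obtain ⟨a, e', he', hee⟩ := Nat.exists_eq_pow_mul_and_not_dvd he 3 (by norm_num)
  have h1 : α ^ (3 ^ a) = 1 := by
    refine main _ True (hpow α _ h3) fun k g hg => ?_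
    refine step_coprime htf (e := e') ?_ ?_ hg
    · exact ((Nat.Prime.coprime_iff_not_dvd Nat.prime_three).2 he').symm
    · rw [← pow_mul, ← hee, hα]
  clear hee hα
  induction a with
  | zero => simpa using h1
  | succ a ih =>
    refine ih ?_
    refine main _ True (hpow α _ h3) fun k g hg => ?_
    refine step_three htf ?_ hg
    rw [← pow_mul, ← pow_succ, h1]

end ring

theorem sep3 {M : Type u} [AddCommGroup M] [Module.Finite ℤ M] [Module.Free ℤ M] (x : M)
    (h : ∀ k : ℕ, ∃ y : M, x = ((3 : ℤ) ^ k) • y) : x = 0 := by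
  let b := Module.Free.chooseBasis ℤ M
  refine b.ext_elem fun i => ?_
  rw [map_zero, Finsupp.zero_apply]
  by_contra hne
  obtain ⟨k, hk⟩ := pow_unbounded_of_one_lt |b.repr x i| (by norm_num : (1 : ℤ) < 3)
  obtain ⟨y, hy⟩ := h k
  have h1 : b.repr x i = 3 ^ k * b.repr y i := by
    rw [hy, map_smul, Finsupp.smul_apply, smul_eq_mul]
  have h2 : (3 : ℤ) ^ k ∣ |b.repr x i| := (dvd_abs _ _).2 ⟨_, h1⟩
  have h3 := Int.le_of_dvd (abs_pos.2 hne) h2
  omega

/-- **Minkowski's lemma**, additive form. -/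
theorem mink_add {M : Type u} [AddCommGroup M] [Module.Finite ℤ M] [Module.Free ℤ M]
    (htf : ∀ (n : ℕ) (x : M), n ≠ 0 → n • x = 0 → x = 0)
    (α : Module.End ℤ M) {e : ℕ} (he : e ≠ 0) (hα : α ^ e = 1)
    (h3 : ∀ x, ∃ y, α x - x = (3 : ℕ) • y) : α = 1 := by
  refine mink_ring ?_ ?_ he hα ?_
  · intro n f hn hf
    refine LinearMap.ext fun x => htf n _ hn ?_
    have := congrArg (fun g : Module.End ℤ M => g x) hf
    simpa [Module.End.mul_apply, Module.End.natCast_apply] using this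
  · intro f hf
    refine LinearMap.ext fun x => sep3 (f x) fun k => ?_
    obtain ⟨g, hg⟩ := hf k
    refine ⟨g x, ?_⟩
    have e1 : ((3 : Module.End ℤ M) ^ k) = ((3 ^ k : ℕ) : Module.End ℤ M) := by push_cast; rfl
    rw [hg, e1, Module.End.mul_apply, Module.End.natCast_apply]
    rw [← natCast_zsmul]
    push_cast
    rfl
  · choose y hy using h3
    have hinj : ∀ a b : M, (3 : ℕ) • a = (3 : ℕ) • b → a = b := by
      intro a b hab
      refine sub_eq_zero.1 (htf 3 _ (by norm_num) ?_)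
      rw [smul_sub, hab, sub_self]
    let g : M →+ M :=
      { toFun := y
        map_zero' := by
          apply hinj
          rw [← hy]; simp
        map_add' := by
          intro a b
          apply hinj
          rw [smul_add, ← hy, ← hy, ← hy, map_add]; abel }
    refine ⟨g.toIntLinearMap, LinearMap.ext fun x => ?_⟩
    have e1 : (3 : Module.End ℤ M) = ((3 : ℕ) : Module.End ℤ M) := by push_cast; rfl
    rw [e1, Module.End.mul_apply, Module.End.natCast_apply, LinearMap.sub_apply]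
    exact hy x

/-- **Minkowski's lemma**: an endomorphism of finite order of a finitely generated torsion-free
abelian group which is trivial modulo cubes is trivial. -/
theorem mink_group {A : Type u} [Group A] [Group.FG A] (hcomm : ∀ x y : A, x * y = y * x)
    (htf : TF A) (α : A → A) (hmul : ∀ x y, α (x * y) = α x * α y) {e : ℕ} (he : e ≠ 0)
    (hα : ∀ x, α^[e] x = x) (h3 : ∀ x, ∃ y, α x = x * y ^ 3) (x : A) : α x = x := by
  let inst : CommGroup A := { (inferInstance : Group A) with mul_comm := hcomm }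
  have hfg0 : AddGroup.FG (Additive A) := by
    rw [AddGroup.fg_iff_addMonoid_fg, ← Monoid.fg_iff_add_fg, ← Group.fg_iff_monoid_fg]
    infer_instance
  have hfin : Module.Finite ℤ (Additive A) := Module.Finite.iff_addGroup_fg.2 hfg0
  have htf' : ∀ (n : ℕ) (x : Additive A), n ≠ 0 → n • x = 0 → x = 0 := by
    intro n x hn hx
    exact htf x.toMul n hn hx
  have htor : Module.IsTorsionFree ℤ (Additive A) := by
    refine Module.IsTorsionFree.of_smul_eq_zero fun r m h => ?_
    by_cases hr : r = 0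
    · exact Or.inl hr
    · right
      refine htf' r.natAbs m (Int.natAbs_ne_zero.2 hr) ?_
      rcases Int.natAbs_eq r with h1 | h1
      · rw [h1, natCast_zsmul] at h; exact h
      · rw [h1, neg_smul, natCast_zsmul, neg_eq_zero] at h; exact h
  let α' : Additive A →+ Additive A :=
    { toFun := fun x => Additive.ofMul (α x.toMul)
      map_zero' := by
        have h := hmul 1 1
        rw [mul_one] at h
        have h1 : α 1 = 1 := by
          have := congrArg (fun z => (α 1)⁻¹ * z) h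
          simpa using this.symm
        exact h1
      map_add' := fun x y => hmul _ _ }
  have hpow : ∀ (n : ℕ) (x : Additive A), (α'.toIntLinearMap ^ n) x =
      Additive.ofMul (α^[n] x.toMul) := by
    intro n
    induction n with
    | zero => intro x; rfl
    | succ n ih =>
      intro x
      rw [pow_succ, Module.End.mul_apply, ih, Function.iterate_succ_apply]
      rfl
  have := mink_add htf' α'.toIntLinearMap he (LinearMap.ext fun x => by
    rw [hpow, hα]; rfl) (fun x => by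
    obtain ⟨y, hy⟩ := h3 x.toMul
    refine ⟨Additive.ofMul y, ?_⟩
    rw [sub_eq_iff_eq_add']
    exact hy)
  exact congrArg (fun g : Module.End ℤ (Additive A) => g (Additive.ofMul x)) this

end Vale.Agent.P188.QA7
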