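import Vale.Agent.P188.QA7.Loc
import Vale.Agent.P188.H754.Malcev11
import Vale.Agent.P188.H789.Milnor

/-!
P188, QA7, (S1): finitely generated groups of polynomial growth are virtually nilpotent
(helper83).
-/

universe u

namespace Vale.Agent.P188.QA7

open Vale.Agent.P188.H754 Vale.Agent.P188.H796
open scoped commutatorElement Pointwise

/-- two different words with the same value -/
theorem exists_coincidence {G : Type u} [Group G] {D : ℕ} (hG : GrowthLE G D) (t e : G) :
    ∃ (m : ℕ) (ε ε' : ℕ → Bool), (∃ i < m, ε i ≠ ε' i) ∧ cw t e ε m = cw t e ε' m := by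
  obtain ⟨C, hC⟩ := hG {1, t, e * t, t⁻¹} (by simp)
  obtain ⟨m, hm⟩ := H789.exists_exp_gt C 1 D
  rw [one_mul] at hm
  obtain ⟨F, hF⟩ : ∃ F : (Fin m → Bool) → G,
      F = fun v => cw t e (fun i => if h : i < m then v ⟨i, h⟩ else false) m * t ^ m := ⟨_, rfl⟩
  have hnot : ¬ Function.Injective F := by
    intro hinj
    have h1 : (Set.range F).ncard = 2 ^ m := by
      rw [← Set.image_univ, Set.ncard_image_of_injective _ hinj, Set.ncard_univ,
        Nat.card_eq_fintype_card]
      simp
    have h2 : (Set.range F).ncard ≤ (({1, t, e * t, t⁻¹} : Set G) ^ m).ncard := by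
      refine Set.ncard_le_ncard ?_ (finite_pow (by simp) m)
      rintro _ ⟨v, rfl⟩
      rw [hF]
      exact cw_word t e _ m
    have h3 := h2.trans (hC m)
    omega
  unfold Function.Injective at hnot
  push Not at hnot
  obtain ⟨v, v', hvv, hne⟩ := hnot
  rw [hF] at hvv
  simp only [mul_left_inj] at hvv
  refine ⟨m, _, _, ?_, hvv⟩
  by_contra hcon
  push Not at hcon
  refine hne (funext fun i => ?_)
  have := hcon i i.2
  simpa using this

theorem dig_bound (z : ℂ) (hz : 2 ≤ ‖z‖) (ε ε' : ℕ → Bool) (m : ℕ) :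
    ‖∑ i ∈ Finset.range m, ((if ε i then z ^ i else 0) - (if ε' i then z ^ i else 0))‖ ≤
      ‖z‖ ^ m - 1 := by
  induction m with
  | zero => simp
  | succ m ih =>
    rw [Finset.sum_range_succ]
    refine (norm_add_le _ _).trans ?_
    have h1 : ‖((if ε m then z ^ m else 0) - (if ε' m then z ^ m else 0))‖ ≤ ‖z‖ ^ m := by
      cases ε m <;> cases ε' m <;> simp
    have h2 : ‖z‖ ^ m * 2 ≤ ‖z‖ ^ m * ‖z‖ := mul_le_mul_of_nonneg_left hz (by positivity)
    rw [pow_succ]
    linarith

theorem dig_inj (z : ℂ) (hz : 2 ≤ ‖z‖) (ε ε' : ℕ → Bool) (m : ℕ)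
    (h : ∑ i ∈ Finset.range m, ((if ε i then z ^ i else 0) - (if ε' i then z ^ i else 0)) = 0) :
    ∀ i < m, ε i = ε' i := by
  induction m with
  | zero => intro i hi; omega
  | succ m ih =>
    rw [Finset.sum_range_succ] at h
    have hm : ε m = ε' m := by
      by_contra hne
      have h1 : ‖((if ε m then z ^ m else 0) - (if ε' m then z ^ m else 0))‖ = ‖z‖ ^ m := by
        cases h2 : ε m <;> cases h3 : ε' m
        · exact absurd (h2.trans h3.symm) hne
        · simp
        · simp
        · exact absurd (h2.trans h3.symm) hne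
      have h2 := dig_bound z hz ε ε' m
      have h3 : ((if ε m then z ^ m else 0) - (if ε' m then z ^ m else 0)) =
          - ∑ i ∈ Finset.range m, ((if ε i then z ^ i else 0) - (if ε' i then z ^ i else 0)) :=
        eq_neg_of_add_eq_zero_right h
      rw [h3, norm_neg] at h1
      linarith
    have h2 : ((if ε m then z ^ m else 0) - (if ε' m then z ^ m else 0)) = 0 := by
      rw [hm, sub_self]
    rw [h2, add_zero] at h
    intro i hi
    rcases Nat.lt_succ_iff_lt_or_eq.1 hi with h4 | h4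
    · exact ih h i h4
    · rw [h4]; exact hm

theorem cw_mem_normal {G : Type u} [Group G] {N : Subgroup G} [hN : N.Normal] (t : G) {e : G}
    (he : e ∈ N) (ε : ℕ → Bool) (m : ℕ) : cw t e ε m ∈ N := by
  induction m with
  | zero => exact one_mem _
  | succ m ih =>
    rw [cw]
    refine mul_mem ih ?_
    split_ifs
    · exact hN.conj_mem e he (t ^ m)
    · exact one_mem _

theorem phi_cw {G : Type u} [Group G] {N : Subgroup G} [hN : N.Normal] (w : GenWeight N) (t : G)
    {e : G} (he : e ∈ N) (ε : ℕ → Bool) (m : ℕ) :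
    w.φ (cw t e ε m) = (∑ i ∈ Finset.range m, (if ε i then (w.ρ t) ^ i else 0)) * w.φ e := by
  induction m with
  | zero => simp [cw, w.φ_one]
  | succ m ih =>
    rw [cw, Finset.sum_range_succ, add_mul, ← ih]
    split_ifs
    · have h1 : cjE t e m ∈ N := hN.conj_mem e he (t ^ m)
      rw [w.φ_mul _ (cw_mem_normal t he ε m) _ h1]
      congr 1
      rw [← map_pow, cjE, w.φ_conj _ _ he]
    · rw [mul_one, zero_mul, add_zero]

/-- a generator weight of a group of polynomial growth has modulus one -/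
theorem norm_rho_lt {G : Type u} [Group G] {D : ℕ} (hG : GrowthLE G D) {N : Subgroup G}
    [hN : N.Normal] (w : GenWeight N) (t : G) : ‖w.ρ t‖ < 2 := by
  by_contra hcon
  push Not at hcon
  obtain ⟨e, he, he0⟩ := w.φ_ne
  obtain ⟨m, ε, ε', ⟨i, hi, hne⟩, heq⟩ := exists_coincidence hG t e
  have h1 := congrArg w.φ heq
  rw [phi_cw w t he, phi_cw w t he] at h1
  have h2 := mul_right_cancel₀ he0 h1
  refine hne (dig_inj (w.ρ t) hcon ε ε' m ?_ i hi)
  rw [Finset.sum_sub_distrib, h2, sub_self]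

theorem norm_rho_eq {G : Type u} [Group G] {D : ℕ} (hG : GrowthLE G D) {N : Subgroup G}
    [hN : N.Normal] (w : GenWeight N) (t : G) : ‖w.ρ t‖ = 1 := by
  have key : ∀ t : G, ‖w.ρ t‖ ≤ 1 := by
    intro t
    by_contra hcon
    push Not at hcon
    obtain ⟨n, hn⟩ := pow_unbounded_of_one_lt 2 hcon
    have := norm_rho_lt hG w (t ^ n)
    rw [map_pow, norm_pow] at this
    linarith
  refine le_antisymm (key t) ?_
  have h1 := key t⁻¹
  have h2 : w.ρ t * w.ρ t⁻¹ = 1 := by rw [← map_mul, mul_inv_cancel, map_one]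
  have h3 : ‖w.ρ t‖ * ‖w.ρ t⁻¹‖ = 1 := by rw [← norm_mul, h2, norm_one]
  nlinarith [norm_nonneg (w.ρ t), norm_nonneg (w.ρ t⁻¹)]

theorem polyZ_le : ∀ (h D : ℕ) (L : Type u) [Group L], PolyZ h L → GrowthLE L D → h ≤ D
  | 0, D, L, _, _, _ => Nat.zero_le _
  | h + 1, D, L, _, hL, hG => by
    obtain ⟨φ, hφ, hk⟩ := hL
    obtain ⟨t, ht⟩ := hφ (Multiplicative.ofAdd 1)
    obtain ⟨D', rfl, hD'⟩ := ker_growth hG φ t ht
    exact Nat.succ_le_succ (polyZ_le h D' φ.ker hk hD')

theorem stNil : StNil.{u} := by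
  intro D B _ hfg hG
  obtain ⟨Γ, inst, ι, hι, hfi, k, η, hη, hNfg, hnil, -, ⟨m, hm⟩, -, htf, c, hc, hw⟩ :=
    virtPoly_genWeight (gromov_lite hG)
  have hΓ : GrowthLE Γ D := hG.of_injective ι hι
  have htriv : ∀ g : Γ, η g = 1 := by
    intro g
    by_contra hne
    obtain ⟨w, hw⟩ := hw g hne
    have h1 := norm_rho_eq hΓ w g
    rw [h1, Real.log_one, abs_zero] at hw
    have h2 : 0 < ‖Multiplicative.toAdd (η g)‖ := by
      rw [norm_pos_iff]
      intro h3
      exact hne (by rw [← ofAdd_toAdd (η g), h3, ofAdd_zero])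
    have := mul_pos hc h2
    linarith
  have hker : η.ker = ⊤ := by
    rw [eq_top_iff]
    intro g _
    exact htriv g
  have hΓnil : Group.IsNilpotent Γ := by
    have h1 : Group.IsNilpotent (⊤ : Subgroup Γ) := hker ▸ hnil
    exact Group.isNilpotent_top.1 h1
  have hfi' := hfi
  refine ⟨ι.range.normalCore, inferInstance, inferInstance, ?_, ?_⟩
  · -- nilpotent
    have h1 : Group.IsNilpotent ι.range :=
      Group.nilpotent_of_surjective ι.rangeRestrict ι.rangeRestrict_surjective
    rw [Subgroup.isNilpotent_iff_lowerCentralSeries] at h1 ⊢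
    obtain ⟨n, hn⟩ := h1
    refine ⟨n, ?_⟩
    rw [eq_bot_iff, ← hn]
    exact Subgroup.lowerCentralSeries_mono n (Subgroup.normalCore_le _)
  · have h1 : PolyZ m ι.range := PolyZ.of_equiv m (MonoidHom.ofInjective hι) hm
    obtain ⟨m', -, hm'⟩ := PolyZ.of_injective m
      (Subgroup.inclusion (Subgroup.normalCore_le ι.range)) (Subgroup.inclusion_injective _) h1
    exact ⟨m', polyZ_le m' D _ hm' (hG.subgroup _), hm'⟩

end Vale.Agent.P188.QA7
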